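import Vale.Agent.P167.N.BAR.TubA

/-!
# P167, `0 < q < 1`: the tubes exist
-/

set_option autoImplicit false

namespace Vale.Agent.P167.N.BAR

/-- **The tubes exist.** -/
theorem tubes {Q : ℝ} (K : Kit Q) : ∃ (a : ℝ) (L s0 : ℤ), 0 < a ∧ a ≤ 1 ∧ 2 ≤ L ∧ 1 ≤ s0 ∧
    Tubes Q a L s0 := tubes_all K

end Vale.Agent.P167.N.BAR
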