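import Vale.Agent.P167.N.BAR.Cor
import Vale.Agent.P167.N.BAR.Tubes

/-!
# P167, `0 < q < 1`: the barrier estimate
-/

set_option autoImplicit false

namespace Vale.Agent.P167.N.BAR

/-- **The barrier estimate**, `N` rings. -/
theorem barQ {Q : ℝ} (K : Kit Q) : ∃ (b : ℝ) (L s0 : ℤ), 0 ≤ b ∧ b < 1 ∧ 2 ≤ L ∧ 1 ≤ s0 ∧
    BarQ Q b L s0 := by
  obtain ⟨a, L, s0, h1, h2, h3, h4, h5⟩ := tubes K
  exact ⟨1 - a, L, s0, by linarith, by linarith, h3, h4, bar_of_tubes K.pos K.le h2 h3 h4 h5⟩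

/-- **The barrier estimate**, power law, any domain. -/
theorem barD {Q : ℝ} (K : Kit Q) : BarD Q := by
  obtain ⟨b, L, s0, h1, h2, h3, h4, h5⟩ := barQ K
  exact barD_of_barQ K.pos h1 h2 h3 h4 h5

/-- **The barrier estimate**, power law. -/
theorem bar {Q : ℝ} (K : Kit Q) : Bar Q := by
  obtain ⟨b, L, s0, h1, h2, h3, h4, h5⟩ := barQ K
  exact bar_of_barQ K.pos h1 h2 h3 h4 h5

end Vale.Agent.P167.N.BAR
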