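import Vale.Agent.P167.H906.Wind
import Vale.Agent.P167.H192.TA.Geo
import Vale.Agent.P167.H632.Prob

/-!
# P167: chains modulo 2 and winding numbers, both parities

`Bdy e f s t`: the chain `f` of squares has the boundary `s + t` at the sites of parity `e`. `wn f z`: the
number of the squares of `f` to the right of `z`. `wn_step`: it changes by `f v` if the square `v` is
crossed by a step of the other parity.
-/

set_option autoImplicit false

namespace Vale.Agent.P167.N.BAR

open Relation Vale.Agent.P167 Vale.Agent.P167.H906 Vale.Agent.P167.H192.TA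
open Vale.Agent.P145.FB (PStep PConn)

/-- The chain `f` has the boundary `s + t` at the sites of parity `e`. -/
def Bdy (e : ℤ) (f : Chn) (s t : ℤ × ℤ) : Prop :=
  ∀ u : ℤ × ℤ, (u.1 + u.2) % 2 = e →
    deg f u = (if u = s then 1 else 0) + (if u = t then 1 else 0)

/-- Cycles, sites of parity `e`. -/
def Cy (e : ℤ) (f : Chn) : Prop := ∀ u : ℤ × ℤ, (u.1 + u.2) % 2 = e → deg f u = 0

/-- The number of the squares of `f` in the row of `z` to the right of `z`. -/
noncomputable def wn (f : Chn) (z : ℤ × ℤ) : ZMod 2 := ray f z.2 z.1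

theorem wn_add (f g : Chn) (z : ℤ × ℤ) : wn (f + g) z = wn f z + wn g z := ray_add f g _ _

theorem Bdy.add {e : ℤ} {f g : Chn} {s t u : ℤ × ℤ} (hf : Bdy e f s t) (hg : Bdy e g t u) :
    Bdy e (f + g) s u := by
  intro z hz
  rw [deg_add, hf z hz, hg z hz]
  calc _ = (if z = s then (1 : ZMod 2) else 0) + (if z = u then 1 else 0) +
      ((if z = t then 1 else 0) + (if z = t then 1 else 0)) := by ring
    _ = _ := by rw [two_zero, add_zero]

theorem Bdy.symm {e : ℤ} {f : Chn} {s t : ℤ × ℤ} (hf : Bdy e f s t) : Bdy e f t s := by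
  intro z hz
  rw [hf z hz, add_comm]

theorem Bdy.cy {e : ℤ} {f : Chn} {s : ℤ × ℤ} (hf : Bdy e f s s) : Cy e f := by
  intro z hz
  rw [hf z hz, two_zero]

theorem Bdy.cy2 {e : ℤ} {f g : Chn} {s t : ℤ × ℤ} (hf : Bdy e f s t) (hg : Bdy e g s t) :
    Cy e (f + g) := (hf.add hg.symm).cy

theorem Cy.add {e : ℤ} {f g : Chn} (hf : Cy e f) (hg : Cy e g) : Cy e (f + g) := by
  intro z hz
  rw [deg_add, hf z hz, hg z hz, add_zero]

theorem pair {e : ℤ} {f : Chn} (hf : Cy e f) {j m : ℤ} (hm : (m + j) % 2 = e) :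
    ray f j m + ray f (j + 1) m = 0 := by
  obtain ⟨M, hM⟩ : ∃ M : ℤ, ∀ s ∈ f.support, s.1 < M := by
    obtain ⟨M, hM⟩ := (f.support.image Prod.fst).bddAbove
    exact ⟨M + 1, fun s hs => by
      have := hM (Finset.mem_coe.2 (Finset.mem_image_of_mem _ hs))
      omega⟩
  have key : ∀ n : ℕ, ∀ m : ℤ, (m + j) % 2 = e → M ≤ m + 2 * n →
      ray f j m + ray f (j + 1) m = 0 := by
    intro n
    induction n with
    | zero =>
      intro m _ h
      rw [ray_eq_zero fun s hs _ => ?_, ray_eq_zero fun s hs _ => ?_, add_zero]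
      · have := hM s hs
        push_cast at h
        omega
      · have := hM s hs
        push_cast at h
        omega
    | succ n ih =>
      intro m hm h
      have h1 := ih (m + 2) (by omega) (by push_cast at *; omega)
      have h2 := hf (m + 1, j + 1) (by simp only; omega)
      simp only [deg, add_sub_cancel_right] at h2
      rw [ray_rec f j m, ray_rec f j (m + 1), ray_rec f (j + 1) m, ray_rec f (j + 1) (m + 1)]
      have e : m + 1 + 1 = m + 2 := by ring
      rw [e]
      calc _ = (f (m + 1, j + 1) + f (m, j + 1) + f (m + 1, j) + f (m, j)) +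
          (ray f j (m + 2) + ray f (j + 1) (m + 2)) := by ring
        _ = 0 := by rw [h1, h2, add_zero]
  have h1 : ((max 0 (M - m)).toNat : ℤ) = max 0 (M - m) := Int.toNat_of_nonneg (le_max_left _ _)
  exact key (max 0 (M - m)).toNat m hm (by rw [h1]; omega)

/-- The winding number changes by `f v` across the square `v`. -/
theorem wn_step {e : ℤ} {f : Chn} (hf : Cy e f) {F : Set (ℤ × ℤ)} {p p' : ℤ × ℤ}
    (hp : (p.1 + p.2) % 2 ≠ e) (he : e = 0 ∨ e = 1) (h : PStep F p p') :
    wn f p' = wn f p + f (min p.1 p'.1, min p.2 p'.2) := by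
  have key : ∀ p p' : ℤ × ℤ, (p.1 + p.2) % 2 ≠ e → p'.1 = p.1 + 1 → PStep F p p' →
      ray f p'.2 p'.1 = ray f p.2 p.1 + f (min p.1 p'.1, min p.2 p'.2) := by
    intro p p' hp h1 h
    obtain ⟨p1, p2⟩ := p
    obtain ⟨p1', p2'⟩ := p'
    simp only at h1 hp ⊢
    subst h1
    obtain ⟨-, h2, h3⟩ := h
    simp only at h2 h3
    have e1 : min p1 (p1 + 1) = p1 := by omega
    rw [e1]
    rcases h2 with h2 | h2
    · subst h2
      have e2 : min p2 (p2 + 1) = p2 := by omega
      rw [e2]
      have h5 := pair hf (j := p2) (m := p1 + 1) (by omega)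
      rw [ray_rec f p2 p1]
      calc _ = (ray f p2 (p1 + 1) + ray f p2 (p1 + 1)) + ray f (p2 + 1) (p1 + 1) := by
            rw [two_zero, zero_add]
        _ = ray f p2 (p1 + 1) + (ray f p2 (p1 + 1) + ray f (p2 + 1) (p1 + 1)) := by ring
        _ = ray f p2 (p1 + 1) + (f (p1, p2) + f (p1, p2)) := by rw [h5, two_zero]
        _ = _ := by ring
    · subst h2
      have e2 : min p2 (p2 - 1) = p2 - 1 := by omega
      rw [e2]
      have h5 := pair hf (j := p2 - 1) (m := p1) (by omega)
      rw [sub_add_cancel, ray_rec f (p2 - 1) p1] at h5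
      calc _ = ray f (p2 - 1) (p1 + 1) + (f (p1, p2 - 1) + f (p1, p2 - 1)) +
            (ray f p2 p1 + ray f p2 p1) := by rw [two_zero, two_zero, add_zero, add_zero]
        _ = (f (p1, p2 - 1) + ray f (p2 - 1) (p1 + 1) + ray f p2 p1) + (ray f p2 p1 +
            f (p1, p2 - 1)) := by ring
        _ = _ := by rw [h5, zero_add]
  rcases h.1 with h1 | h1
  · exact key p p' hp h1 h
  · have h2 := h.2.1
    have h3 := key p' p (by omega) (by omega) h.symm
    rw [min_comm p'.1, min_comm p'.2] at h3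
    show ray f p'.2 p'.1 = ray f p.2 p.1 + _
    rw [h3]
    calc _ = ray f p'.2 p'.1 + 0 := (add_zero _).symm
      _ = ray f p'.2 p'.1 + (f (min p.1 p'.1, min p.2 p'.2) + f (min p.1 p'.1, min p.2 p'.2)) := by
          rw [two_zero]
      _ = _ := by ring

/-- Along a path which does not use the squares of the cycle the winding number is constant. -/
theorem wn_path {e : ℤ} {f : Chn} (hf : Cy e f) (he : e = 0 ∨ e = 1) {F : Set (ℤ × ℤ)}
    {p q : ℤ × ℤ} (hp : (p.1 + p.2) % 2 ≠ e) (h : Pw F p q) (hF : ∀ v ∈ F, f v = 0) :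
    wn f q = wn f p := by
  induction h with
  | refl => rfl
  | @tail x y hx h1 ih =>
    have hpar : (x.1 + x.2) % 2 = (p.1 + p.2) % 2 := by
      clear ih h1 hF
      induction hx with
      | refl => rfl
      | @tail x y _ h1 ih =>
        have := h1.1
        have := h1.2.1
        omega
    rw [wn_step hf (by rw [hpar]; exact hp) he h1, ih, hF _ h1.2.2, add_zero]

theorem not_mem_supp {f : Chn} {v : ℤ × ℤ} (h : v ∉ f.support) : f v = 0 :=
  Finsupp.notMem_support_iff.1 h

theorem deg_step {v w z : ℤ × ℤ} (k1 : w.1 = v.1 + 1 ∨ w.1 = v.1 - 1)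
    (k2 : w.2 = v.2 + 1 ∨ w.2 = v.2 - 1) (hz : (z.1 + z.2) % 2 = (v.1 + v.2) % 2) :
    deg (Finsupp.single (min v.1 w.1, min v.2 w.2) (1 : ZMod 2)) z =
      (if z = v then 1 else 0) + (if z = w then 1 else 0) := by
  obtain ⟨v1, v2⟩ := v
  obtain ⟨w1, w2⟩ := w
  obtain ⟨z1, z2⟩ := z
  simp only [deg, Finsupp.single_apply, Prod.mk.injEq] at *
  rcases k1 with k1 | k1 <;> rcases k2 with k2 | k2 <;> subst k1 <;> subst k2 <;>
    simp only [min_def] <;> (repeat' split_ifs) <;>
    first | rfl | (exfalso; omega)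

theorem tot_step {v w : ℤ × ℤ} (k2 : w.2 = v.2 + 1 ∨ w.2 = v.2 - 1) (j : ℤ) :
    (if (min v.1 w.1, min v.2 w.2).2 = j then (1 : ZMod 2) else 0) =
      (if j < v.2 then 1 else 0) + (if j < w.2 then 1 else 0) := by
  simp only
  rcases k2 with k2 | k2
  · by_cases h1 : min v.2 w.2 = j
    · rw [if_pos h1, if_neg (by omega), if_pos (by omega), zero_add]
    · rw [if_neg h1]
      by_cases h2 : j < v.2
      · rw [if_pos h2, if_pos (by omega), two_zero]
      · rw [if_neg h2, if_neg (by omega), add_zero]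
  · by_cases h1 : min v.2 w.2 = j
    · rw [if_pos h1, if_pos (by omega), if_neg (by omega), add_zero]
    · rw [if_neg h1]
      by_cases h2 : j < v.2
      · rw [if_pos h2, if_pos (by omega), two_zero]
      · rw [if_neg h2, if_neg (by omega), add_zero]

/-- A path gives a chain. -/
theorem exists_chn {e : ℤ} {F : Set (ℤ × ℤ)} {u v : ℤ × ℤ} (hu : (u.1 + u.2) % 2 = e)
    (h : Pw F u v) : ∃ f : Chn, (∀ s ∈ f.support, s ∈ F) ∧ Bdy e f u v ∧
      (∀ j : ℤ, tot f j = (if j < u.2 then 1 else 0) + (if j < v.2 then 1 else 0)) ∧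
      (v.1 + v.2) % 2 = e := by
  induction h with
  | refl =>
    refine ⟨0, fun s hs => absurd hs (by simp), fun z _ => ?_, fun j => ?_, hu⟩
    · rw [two_zero]
      simp [deg]
    · rw [two_zero, tot_zero]
  | @tail v w _ h1 ih =>
    obtain ⟨f, g1, g2, g3, g4⟩ := ih
    obtain ⟨k1, k2, k3⟩ := h1
    refine ⟨f + Finsupp.single (min v.1 w.1, min v.2 w.2) 1, ?_, ?_, ?_, ?_⟩
    · intro s hs
      rcases Finset.mem_union.1 (Finsupp.support_add hs) with h | h
      · exact g1 s h
      · have := Finset.mem_singleton.1 (Finsupp.support_single_subset h)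
        rw [this]
        exact k3
    · intro z hz
      rw [deg_add, g2 z hz, deg_step k1 k2 (hz.trans g4.symm)]
      calc _ = (if z = u then (1 : ZMod 2) else 0) + (if z = w then 1 else 0) +
          ((if z = v then 1 else 0) + (if z = v then 1 else 0)) := by ring
        _ = _ := by rw [two_zero, add_zero]
    · intro j
      rw [tot_add, g3, tot_single, tot_step k2 j]
      calc _ = (if j < u.2 then (1 : ZMod 2) else 0) + (if j < w.2 then 1 else 0) +
          ((if j < v.2 then 1 else 0) + (if j < v.2 then 1 else 0)) := by ring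
        _ = _ := by rw [two_zero, add_zero]
    · omega

end Vale.Agent.P167.N.BAR
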