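import Vale.Agent.P167.N.BAR.Main
import Vale.Agent.P167.H24.ChDef

/-!
# P167, `0 < q < 1`: the barrier estimate as a power law

`Bar Q`: `U` has a connected complement, `K` is a connected set of squares in the inner box, `K'` a
connected set of squares off the outer box; the probability that they are joined by squares of `U` of
the colour `c` is at most `C (t / R) ^ α`, for all configurations off the ring.
-/

set_option autoImplicit false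

namespace Vale.Agent.P167.N.BAR

open Finset Relation Vale.Agent.P167 Vale.Agent.P167.FK Vale.Agent.P167.FKA Vale.Agent.P167.H192.TA
  Vale.Agent.P167.H632 Vale.Agent.P167.H262 Vale.Agent.P167.H192.Q Vale.Agent.P167.N.H192.Q
open Vale.Agent.P167.H24 (Adj Jd)
open Vale.Agent.P167.H166 (bxx mem_bxx)
open Vale.Agent.P145.FB (PStep PConn)

/-- The complement of `U` is connected through corners of the colour `!c`. -/
def Cn (c : Bool) (U : Finset (ℤ × ℤ)) : Prop :=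
  ∀ v w, v ∉ U → w ∉ U → Jd (!c) (↑U : Set (ℤ × ℤ))ᶜ v w

/-- **The barrier estimate** (crossings of the colour `c` of one class). -/
def Bar (Q : ℝ) : Prop := ∃ α C : ℝ, 0 < α ∧ 0 < C ∧ ∀ (c : Bool) (x : ℤ × ℤ) (t R : ℤ), 1 ≤ t →
  t ≤ R → ∀ U K K' : Finset (ℤ × ℤ), Cn c U → (∃ v ∈ bxx x t, v ∉ U) → K ⊆ U → K ⊆ bxx x t →
    (∀ v ∈ K, ∀ z ∈ K, Jd c (↑K : Set (ℤ × ℤ)) v z) → K' ⊆ U → Disjoint K' (bxx x R) →
    (∀ v ∈ K', ∀ z ∈ K', Jd c (↑K' : Set (ℤ × ℤ)) v z) → ∀ ζ, Good ζ →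
      Pr Q (U ∩ (bxx x R \ bxx x t)) ζ
        (NET.Jn c ↑U (NET.Vc c ↑K) (NET.Vc c ↑K')) ≤ C * ((t : ℝ) / R) ^ α

theorem cor_cor {c : Bool} {v s : ℤ × ℤ} (h : NET.Cor c v s) : Cor v s ∧ (s.1 + s.2) % 2 = pr c :=
  ⟨⟨h.1, h.2.1⟩, h.2.2⟩

theorem two_cor {c : Bool} {F : Set (ℤ × ℤ)} {v s t : ℤ × ℤ} (hv : v ∈ F) (hs : NET.Cor c v s)
    (ht : NET.Cor c v t) : Pw F s t := by
  by_cases h : s = t
  · rw [h]
  · exact ReflTransGen.single (step_of_two hv (cor_cor hs).1 (cor_cor ht).1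
      (hs.2.2.trans ht.2.2.symm) h)

/-- Chains of squares give paths of sites. -/
theorem jd_pw {c : Bool} {F : Set (ℤ × ℤ)} {v w s t : ℤ × ℤ} (h : Jd c F v w)
    (hs : NET.Cor c v s) (ht : NET.Cor c w t) : Pw F s t := by
  have key : ∀ w, ReflTransGen (fun a b => b ∈ F ∧ Adj c a b) v w →
      ∀ t, NET.Cor c w t → Pw F s t := by
    intro w hw
    induction hw with
    | refl => exact fun t ht => two_cor h.1 hs ht
    | @tail a b _ hab ih =>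
      intro t ht
      obtain ⟨x, hx1, hx2⟩ := hab.2
      exact (ih x hx1).trans (two_cor hab.1 hx2 ht)
  exact key w h.2 t ht

theorem noHole_of_cn {c : Bool} {U : Finset (ℤ × ℤ)} (h : Cn c U) : NoHole (!c) U := by
  rintro s ⟨h1, v, h2, h3⟩ t ⟨k1, w, k2, k3⟩
  exact jd_pw (h v w h2 k2) ⟨h3.1, h3.2, h1⟩ ⟨k3.1, k3.2, k1⟩

theorem Bq_sub_bxx {x : ℤ × ℤ} {R : ℤ} : Bq x R ⊆ bxx x R := by
  intro v hv
  unfold Bq at hv
  rw [mem_product, mem_Ico, mem_Ico] at hv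
  rw [mem_bxx]
  unfold nm
  rw [Prod.fst_sub, Prod.snd_sub, max_le_iff, abs_le, abs_le]
  omega

theorem bxx_sub_Bq {x : ℤ × ℤ} {t n : ℤ} (h : t + 1 ≤ n) : bxx x t ⊆ Bq x n := by
  intro v hv
  rw [mem_bxx] at hv
  unfold nm at hv
  rw [Prod.fst_sub, Prod.snd_sub, max_le_iff, abs_le, abs_le] at hv
  unfold Bq
  rw [mem_product, mem_Ico, mem_Ico]
  omega

theorem cor_in {c : Bool} {x v s : ℤ × ℤ} {t n : ℤ} (h : t + 1 ≤ n) (hv : v ∈ bxx x t)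
    (hs : NET.Cor c v s) : nm (s - x) ≤ n := by
  rw [mem_bxx] at hv
  unfold nm at *
  obtain ⟨h1, h2, -⟩ := hs
  rw [Prod.fst_sub, Prod.snd_sub, max_le_iff, abs_le, abs_le] at *
  omega

theorem cor_out {c : Bool} {x v s : ℤ × ℤ} {R : ℤ} (hv : v ∉ bxx x R)
    (hs : NET.Cor c v s) : R ≤ nm (s - x) := by
  rw [mem_bxx] at hv
  unfold nm at *
  obtain ⟨h1, h2, -⟩ := hs
  rw [Prod.fst_sub, Prod.snd_sub, max_le_iff, abs_le, abs_le] at hv
  rw [Prod.fst_sub, Prod.snd_sub, le_max_iff, le_abs, le_abs]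
  omega

/-- The power law. -/
theorem pow_law {b : ℝ} (hb0 : 0 ≤ b) (hb1 : b < 1) {L s0 : ℤ} (hL : 2 ≤ L) (hs0 : 1 ≤ s0) :
    ∃ α C : ℝ, 0 < α ∧ 0 < C ∧ ∀ t R : ℤ, 1 ≤ t → t ≤ R → ∃ N : ℕ,
      (N = 0 ∨ s0 * (t + 1) * L ^ N ≤ R) ∧ b ^ N ≤ C * ((t : ℝ) / R) ^ α := by
  set b' : ℝ := max b (1 / 2) with hb'
  have hb'0 : 0 < b' := lt_of_lt_of_le (by norm_num) (le_max_right _ _)
  have hb'1 : b' < 1 := max_lt hb1 (by norm_num)
  have hL1 : (1 : ℝ) < L := by exact_mod_cast (by omega : (1 : ℤ) < L)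
  have hlog : 0 < Real.log L := Real.log_pos hL1
  have hs0' : (1 : ℝ) ≤ s0 := by exact_mod_cast hs0
  set α : ℝ := -Real.log b' / Real.log L with hα
  have hα0 : 0 < α := div_pos (by have := Real.log_neg hb'0 hb'1; linarith) hlog
  have hLb : ∀ N : ℕ, b' ^ N = ((L : ℝ) ^ N) ^ (-α) := by
    intro N
    rw [← Real.rpow_natCast b' N, ← Real.rpow_natCast (L : ℝ) N, ← Real.rpow_mul (by linarith),
      Real.rpow_def_of_pos hb'0, Real.rpow_def_of_pos (by linarith)]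
    congr 1
    rw [hα]
    field_simp
  refine ⟨α, (2 * s0 * L) ^ α, hα0, by positivity, fun t R ht htR => ?_⟩
  have ht' : (1 : ℝ) ≤ t := by exact_mod_cast ht
  have hR' : (t : ℝ) ≤ R := by exact_mod_cast htR
  set n : ℤ := s0 * (t + 1) with hn
  have hnr : (n : ℝ) = s0 * (t + 1) := by rw [hn]; push_cast; ring
  have hn2 : (n : ℝ) ≤ 2 * s0 * t := by rw [hnr]; nlinarith
  -- the first power which is too large
  have hex : ∃ N : ℕ, R < n * L ^ N := by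
    obtain ⟨N, hN⟩ := pow_unbounded_of_one_lt R (show (1 : ℤ) < L by omega)
    refine ⟨N, hN.trans_le ?_⟩
    have h1 : 1 ≤ n := by
      rw [hn]
      nlinarith
    have h2 : (0 : ℤ) ≤ L ^ N := by positivity
    nlinarith
  classical
  obtain ⟨N, hN, hmin⟩ : ∃ N : ℕ, R < n * L ^ N ∧ ∀ m < N, ¬ R < n * L ^ m :=
    ⟨Nat.find hex, Nat.find_spec hex, fun m hm => Nat.find_min hex hm⟩
  refine ⟨N - 1, ?_, ?_⟩
  · rcases Nat.eq_zero_or_pos N with h | h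
    · left; omega
    · right
      exact not_lt.1 (hmin (N - 1) (by omega))
  · have h1 : b ^ (N - 1) ≤ b' ^ (N - 1) := pow_le_pow_left₀ hb0 (le_max_left _ _) _
    refine h1.trans ?_
    have hN' : (R : ℝ) < n * (L : ℝ) ^ N := by exact_mod_cast hN
    have h2 : (R : ℝ) / (2 * s0 * L * t) ≤ (L : ℝ) ^ (N - 1) := by
      rw [div_le_iff₀ (by positivity)]
      rcases Nat.eq_zero_or_pos N with h | h
      · subst h
        simp only [pow_zero, mul_one] at hN'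
        simp only [Nat.zero_sub, pow_zero, one_mul]
        have : (1 : ℝ) ≤ L := hL1.le
        nlinarith [mul_pos (show (0 : ℝ) < s0 by linarith) (show (0 : ℝ) < t by linarith)]
      · have e1 : (L : ℝ) ^ N = L ^ (N - 1) * L := by
          rw [← pow_succ]
          congr 1
          omega
        rw [e1] at hN'
        have h3 : (0 : ℝ) ≤ (L : ℝ) ^ (N - 1) * L := by positivity
        have h4 : (n : ℝ) * ((L : ℝ) ^ (N - 1) * L) ≤ 2 * s0 * t * ((L : ℝ) ^ (N - 1) * L) :=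
          mul_le_mul_of_nonneg_right hn2 h3
        calc (R : ℝ) ≤ 2 * s0 * t * ((L : ℝ) ^ (N - 1) * L) := hN'.le.trans h4
          _ = _ := by ring
    rw [hLb, Real.rpow_neg (by positivity)]
    have hR0 : (0 : ℝ) < R := by linarith
    have h5 : ((R : ℝ) / (2 * s0 * L * t)) ^ α ≤ ((L : ℝ) ^ (N - 1)) ^ α :=
      Real.rpow_le_rpow (by positivity) h2 hα0.le
    have h6 : 0 < ((R : ℝ) / (2 * s0 * L * t)) ^ α := by positivity
    calc (((L : ℝ) ^ (N - 1)) ^ α)⁻¹ ≤ (((R : ℝ) / (2 * s0 * L * t)) ^ α)⁻¹ :=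
          inv_anti₀ h6 h5
      _ = (2 * s0 * L) ^ α * ((t : ℝ) / R) ^ α := by
          rw [← Real.inv_rpow (by positivity), inv_div, ← Real.mul_rpow (by positivity)
            (by positivity)]
          congr 1
          ring

/-- **The barrier estimate**, any domain `D` which contains the squares of `U` in the ring. -/
def BarD (Q : ℝ) : Prop := ∃ α C : ℝ, 0 < α ∧ 0 < C ∧ ∀ (c : Bool) (x : ℤ × ℤ) (t R : ℤ), 1 ≤ t →
  t ≤ R → ∀ U D K K' : Finset (ℤ × ℤ), Cn c U → U ∩ (bxx x R \ bxx x t) ⊆ D →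
    (∃ v ∈ bxx x t, v ∉ U) → K ⊆ U → K ⊆ bxx x t →
    (∀ v ∈ K, ∀ z ∈ K, Jd c (↑K : Set (ℤ × ℤ)) v z) → K' ⊆ U → Disjoint K' (bxx x R) →
    (∀ v ∈ K', ∀ z ∈ K', Jd c (↑K' : Set (ℤ × ℤ)) v z) → ∀ ζ, Good ζ →
      Pr Q D ζ (NET.Jn c ↑U (NET.Vc c ↑K) (NET.Vc c ↑K')) ≤ C * ((t : ℝ) / R) ^ α

/-- **The power law for one class.** -/
theorem barD_of_barQ {Q b : ℝ} (hQ : 0 < Q) (hb0 : 0 ≤ b) (hb1 : b < 1) {L s0 : ℤ} (hL : 2 ≤ L)
    (hs0 : 1 ≤ s0) (h : BarQ Q b L s0) : BarD Q := by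
  obtain ⟨α, C, hα, hC, hpl⟩ := pow_law hb0 hb1 hL hs0
  refine ⟨α, C, hα, hC, ?_⟩
  intro c x t R ht htR U D K K' hU hD hv hKU hKt hK hKU' hKR hK' ζ hζ
  obtain ⟨N, hN, hle⟩ := hpl t R ht htR
  rcases hN with rfl | hN
  · rw [pow_zero] at hle
    exact (FKA.Pr_le_one hQ _).trans hle
  refine le_trans ?_ hle
  have hn1 : t + 1 ≤ s0 * (t + 1) := by nlinarith
  have hn2 : s0 ≤ s0 * (t + 1) := by nlinarith
  obtain ⟨v, hv1, hv2⟩ := hv
  have hh : (!(!c)) = c := Bool.not_not c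
  have key := h (!c) U D ζ x (s0 * (t + 1)) N (NET.Vc c ↑K)
    (NET.Vc c ↑K') hζ ?_ hn2 (noHole_of_cn hU) ⟨v, bxx_sub_Bq hn1 hv1, hv2⟩ ?_ ?_ ?_ ?_
  · rw [hh] at key
    refine le_trans (FKA.Pr_mono hQ ?_) key
    rintro ω ⟨u, hu, w, hw, huw⟩
    refine ⟨u, hu, w, hw, Pw.mn ?_ huw⟩
    rintro y ⟨hy1, hy2⟩
    exact ⟨Finset.mem_coe.1 hy2, hy1⟩
  · intro w hw1 hw2 hw3
    refine hD (mem_inter.2 ⟨hw1, mem_sdiff.2 ⟨Bq_sub_bxx (Bq_mono' hN hw2), fun h4 => ?_⟩⟩)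
    exact hw3 (bxx_sub_Bq hn1 h4)
  · rintro s ⟨w, hw, hs⟩
    rw [hh]
    exact ⟨hs.2.2, cor_in hn1 (hKt (Finset.mem_coe.1 hw)) hs⟩
  · rintro s ⟨w, hw, hs⟩ s' ⟨w', hw', hs'⟩
    refine Pw.mn ?_ (jd_pw (hK w (Finset.mem_coe.1 hw) w' (Finset.mem_coe.1 hw')) hs hs')
    intro y hy
    exact ⟨hKU (Finset.mem_coe.1 hy), bxx_sub_Bq hn1 (hKt (Finset.mem_coe.1 hy))⟩
  · rintro s ⟨w, hw, hs⟩
    refine hN.trans (cor_out (fun h4 => ?_) hs)
    exact Finset.disjoint_left.1 hKR (Finset.mem_coe.1 hw) h4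
  · rintro s ⟨w, hw, hs⟩ s' ⟨w', hw', hs'⟩
    refine Pw.mn ?_ (jd_pw (hK' w (Finset.mem_coe.1 hw) w' (Finset.mem_coe.1 hw')) hs hs')
    intro y hy
    refine ⟨hKU' (Finset.mem_coe.1 hy), fun h4 => ?_⟩
    exact Finset.disjoint_left.1 hKR (Finset.mem_coe.1 hy) (Bq_sub_bxx (Bq_mono' hN h4))

/-- The form of `H564`. -/
theorem bar_of_barQ {Q b : ℝ} (hQ : 0 < Q) (hb0 : 0 ≤ b) (hb1 : b < 1) {L s0 : ℤ} (hL : 2 ≤ L)
    (hs0 : 1 ≤ s0) (h : BarQ Q b L s0) : Bar Q := by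
  obtain ⟨α, C, hα, hC, hb⟩ := barD_of_barQ hQ hb0 hb1 hL hs0 h
  exact ⟨α, C, hα, hC, fun c x t R ht htR U K K' hU hv hKU hKt hK hKU' hKR hK' ζ hζ =>
    hb c x t R ht htR U _ K K' hU (Finset.Subset.refl _) hv hKU hKt hK hKU' hKR hK' ζ hζ⟩

end Vale.Agent.P167.N.BAR
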