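import Vale.Agent.P167.N.BAR.Chain
import Vale.Agent.P167.N.H192.Q.Rough
import Vale.Agent.P167.N.Base.Crs

/-!
# P167, `0 < q < 1`: the barrier in a ring with arbitrary walls, definitions

`TubePair Q a c x n m U V1 V2 T A B R S`: in the ring between the boxes `(x, n)` and `(x, m)` two tubes
`T i` (sets of squares, `i : Bool`) with the ends `A i`, `B i`; `V1` and `V2` are sites (of the colour
`c`) of two connected pieces of walls (squares off `U`) which cut the tubes near the ends; `R i ∪ V1` is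
the part of the tube on the side of `A i`, `S i ∪ V2` the part on the side of `B i`. The two tubes run
from `V1` to `V2` on different sides of the hole (`wind`).
-/

set_option autoImplicit false

namespace Vale.Agent.P167.N.BAR

open Finset Relation Vale.Agent.P167 Vale.Agent.P167.FK Vale.Agent.P167.FKA Vale.Agent.P167.H192.TA
  Vale.Agent.P167.H632 Vale.Agent.P167.H262 Vale.Agent.P167.H192.Q Vale.Agent.P167.N.H192.Q
open Vale.Agent.P167.H906 (Chn ray tot deg)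
open Vale.Agent.P145.FB (PStep PConn)

/-- Two tubes in a ring. -/
structure TubePair (Q a : ℝ) (c : Bool) (x : ℤ × ℤ) (n m : ℤ) (U : Finset (ℤ × ℤ))
    (V1 V2 : Set (ℤ × ℤ)) (T : Bool → Finset (ℤ × ℤ)) (A B R S : Bool → Set (ℤ × ℤ)) : Prop where
  /-- the tubes are in the ring -/
  ring : ∀ i, ∀ v ∈ T i, v ∈ Bq x m ∧ v ∉ Bq x n
  /-- the complement of a tube is connected -/
  hZ : ∀ i, ∀ s ∈ Bs c (T i), ∀ t ∈ Bs c (T i), Pw (↑(T i) : Set (ℤ × ℤ))ᶜ s t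
  /-- the ends are at the boundary -/
  hA : ∀ i, A i ⊆ Bs c (T i)
  hB : ∀ i, B i ⊆ Bs c (T i)
  /-- the tubes are crossed with a probability bounded below -/
  low : ∀ i, a ≤ Pr Q (T i) (etac c) (CC c (T i) (A i) (B i))
  ne1 : V1.Nonempty
  ne2 : V2.Nonempty
  par1 : ∀ z ∈ V1, (z.1 + z.2) % 2 = pr c
  par2 : ∀ z ∈ V2, (z.1 + z.2) % 2 = pr c
  /-- the pieces of walls are connected and touch walls -/
  con1 : ∀ i, ∀ z ∈ V1, ∀ z' ∈ V1, Pw {v | v ∈ T i ∧ v ∉ U} z z'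
  con2 : ∀ i, ∀ z ∈ V2, ∀ z' ∈ V2, Pw {v | v ∈ T i ∧ v ∉ U} z z'
  wall1 : ∀ i, ∀ z ∈ V1, ∃ v ∈ T i, v ∉ U ∧ Cor v z
  wall2 : ∀ i, ∀ z ∈ V2, ∃ v ∈ T i, v ∉ U ∧ Cor v z
  /-- the sides of the ends -/
  endA : ∀ i, A i ⊆ R i ∪ V1
  endB : ∀ i, B i ⊆ S i ∪ V2
  stepR : ∀ i, ∀ v ∈ T i, ∀ z z' : ℤ × ℤ, Cor v z → Cor v z' → (z'.1 + z'.2) % 2 = pr c →
    z ∈ R i → z' ∈ R i ∪ V1
  stepS : ∀ i, ∀ v ∈ T i, ∀ z z' : ℤ × ℤ, Cor v z → Cor v z' → (z'.1 + z'.2) % 2 = pr c →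
    z ∈ S i → z' ∈ S i ∪ V2
  parR : ∀ i, ∀ z ∈ R i, (z.1 + z.2) % 2 = pr c
  parS : ∀ i, ∀ z ∈ S i, (z.1 + z.2) % 2 = pr c
  disj : ∀ i, Disjoint (R i ∪ V1) (S i ∪ V2)
  /-- the two tubes run on different sides of the hole -/
  wind : ∀ s t : ℤ × ℤ, (s.1 + s.2) % 2 = pr (!c) → (t.1 + t.2) % 2 = pr (!c) →
    nm (s - x) ≤ n → m ≤ nm (t - x) → ∃ ρ : Bool → Chn,
      (∀ i, Bdy (pr (!c)) (ρ i) s t ∧ ∀ v ∈ (ρ i).support, v ∉ T i) ∧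
        ∀ z1 ∈ V1, ∀ z2 ∈ V2, wn (ρ false + ρ true) z1 + wn (ρ false + ρ true) z2 = 1

/-- Every wall which crosses the ring gives tubes. -/
def Tubes (Q a : ℝ) (L s0 : ℤ) : Prop := ∀ (c : Bool) (x : ℤ × ℤ) (n : ℤ) (U : Finset (ℤ × ℤ))
  (z0 z1 : ℤ × ℤ), s0 ≤ n → (z0.1 + z0.2) % 2 = pr c → nm (z0 - x) ≤ n → L * n ≤ nm (z1 - x) →
    Pw (↑U : Set (ℤ × ℤ))ᶜ z0 z1 → ∃ V1 V2 T A B R S, TubePair Q a c x n (L * n) U V1 V2 T A B R S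

/-- The complement of `U` is connected by steps of the colour `c`. -/
def NoHole (c : Bool) (U : Finset (ℤ × ℤ)) : Prop :=
  ∀ s ∈ Bs c U, ∀ t ∈ Bs c U, Pw (↑U : Set (ℤ × ℤ))ᶜ s t

/-- **The barrier estimate**: paths of the colour `!c` of squares of `U` from a set `ρ` which is
connected inside of the box `(x, n)` to a set `u` which is connected outside of the box `(x, n L ^ N)`.
Only the squares of `U` between the boxes must be random. -/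
def BarQ (Q a : ℝ) (L s0 : ℤ) : Prop := ∀ (c : Bool) (U D : Finset (ℤ × ℤ)) (η : Cfg) (x : ℤ × ℤ)
  (n : ℤ) (N : ℕ) (ρ u : Set (ℤ × ℤ)), Good η →
    (∀ v ∈ U, v ∈ Bq x (n * L ^ N) → v ∉ Bq x n → v ∈ D) → s0 ≤ n → NoHole c U →
    (∃ v ∈ Bq x n, v ∉ U) →
    (∀ s ∈ ρ, (s.1 + s.2) % 2 = pr (!c) ∧ nm (s - x) ≤ n) →
    (∀ s ∈ ρ, ∀ s' ∈ ρ, Pw {v | v ∈ U ∧ v ∈ Bq x n} s s') →
    (∀ t ∈ u, n * L ^ N ≤ nm (t - x)) →
    (∀ t ∈ u, ∀ t' ∈ u, Pw {v | v ∈ U ∧ v ∉ Bq x (n * L ^ N)} t t') →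
    Pr Q D η {ω | ∃ s ∈ ρ, ∃ t ∈ u, Pw {v | v ∈ U ∧ ω v = !c} s t} ≤ a ^ N

end Vale.Agent.P167.N.BAR
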