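import Vale.Agent.P167.N.BAR.Low
import Vale.Agent.P167.H906.Halo

/-!
# P167, `0 < q < 1`: tubes in the four frames

`fr b1 b2 x X`: the rectangle `X` in the frame with the centre `x`: top (`b1 = b2 = false`), bottom
(`b2`), right (`b1`), left (both). `fn L`: the squares of a list of rectangles. `hz_of`: the
complement of `fn L` is connected if it is covered by a chain of overlapping rectangles.
-/

set_option autoImplicit false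

namespace Vale.Agent.P167.N.BAR

open Finset Relation Vale.Agent.P167 Vale.Agent.P167.FK Vale.Agent.P167.FKA Vale.Agent.P167.H192.TA
  Vale.Agent.P167.H632 Vale.Agent.P167.H262 Vale.Agent.P167.H192.Q Vale.Agent.P167.N.H192.Q
  Vale.Agent.P167.H704 Vale.Agent.P167.H871
open Vale.Agent.P145.FB (PStep PConn)
open Vale.Agent.P153.Topo (Rect mem_rect)

/-- The squares of a list of rectangles. -/
noncomputable def fn : List Crs → Finset (ℤ × ℤ)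
  | [] => ∅
  | X :: L => Rsq X.a X.b X.p X.q ∪ fn L

theorem mem_fn {v : ℤ × ℤ} : ∀ {L : List Crs}, v ∈ fn L ↔ ∃ X ∈ L, v ∈ sq X
  | [] => by simp [fn]
  | X :: L => by
    rw [fn, Finset.mem_union, mem_Rsq, mem_fn]
    constructor
    · rintro (⟨h1, h2, h3, h4⟩ | ⟨Y, hY, h⟩)
      · exact ⟨X, List.mem_cons_self, h1, h2, h3, h4⟩
      · exact ⟨Y, List.mem_cons_of_mem _ hY, h⟩
    · rintro ⟨Y, hY, h⟩
      rcases List.mem_cons.1 hY with rfl | hY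
      · exact Or.inl ⟨h.1, h.2.1, h.2.2.1, h.2.2.2⟩
      · exact Or.inr ⟨Y, hY, h⟩

theorem sq_fn {L : List Crs} {X : Crs} (h : X ∈ L) : sq X ⊆ (↑(fn L) : Set (ℤ × ℤ)) :=
  fun _ hv => Finset.mem_coe.2 (mem_fn.2 ⟨X, h, hv⟩)

/-- The rectangle in the frame. -/
def fr (b1 b2 : Bool) (x : ℤ × ℤ) (X : Crs) : Crs :=
  if b1 then
    (if b2 then ⟨!X.d, x.1 - X.q, x.1 - X.p, x.2 + X.a, x.2 + X.b⟩
      else ⟨!X.d, x.1 + X.p, x.1 + X.q, x.2 + X.a, x.2 + X.b⟩)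
  else
    (if b2 then ⟨X.d, x.1 + X.a, x.1 + X.b, x.2 - X.q, x.2 - X.p⟩
      else ⟨X.d, x.1 + X.a, x.1 + X.b, x.2 + X.p, x.2 + X.q⟩)

/-- The coordinates of a square in the frame. -/
def gs (b1 b2 : Bool) (x v : ℤ × ℤ) : ℤ × ℤ :=
  if b1 then (if b2 then (v.2 - x.2, x.1 - 1 - v.1) else (v.2 - x.2, v.1 - x.1))
  else (if b2 then (v.1 - x.1, x.2 - 1 - v.2) else (v.1 - x.1, v.2 - x.2))

/-- The coordinates of a site in the frame. -/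
def gz (b1 b2 : Bool) (x v : ℤ × ℤ) : ℤ × ℤ :=
  if b1 then (if b2 then (v.2 - x.2, x.1 - v.1) else (v.2 - x.2, v.1 - x.1))
  else (if b2 then (v.1 - x.1, x.2 - v.2) else (v.1 - x.1, v.2 - x.2))

theorem mem_sq_fr {b1 b2 : Bool} {x v : ℤ × ℤ} {X : Crs} :
    v ∈ sq (fr b1 b2 x X) ↔ gs b1 b2 x v ∈ sq X := by
  cases b1 <;> cases b2 <;> simp [sq, fr, gs] <;> omega

theorem mem_fn_fr {b1 b2 : Bool} {x v : ℤ × ℤ} {L : List Crs} :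
    v ∈ fn (L.map (fr b1 b2 x)) ↔ gs b1 b2 x v ∈ fn L := by
  rw [mem_fn, mem_fn]
  constructor
  · rintro ⟨Y, hY, h⟩
    obtain ⟨X, hX, rfl⟩ := List.mem_map.1 hY
    exact ⟨X, hX, mem_sq_fr.1 h⟩
  · rintro ⟨X, hX, h⟩
    exact ⟨_, List.mem_map_of_mem hX, mem_sq_fr.2 h⟩

theorem mt_fr {b1 b2 : Bool} {x : ℤ × ℤ} {X Y : Crs} (h : Mt X Y) :
    Mt (fr b1 b2 x X) (fr b1 b2 x Y) := by
  rcases h with ⟨h1, h2, h3, h4, h5, h6⟩ | ⟨h1, h2, h3, h4, h5, h6⟩ <;> cases b1 <;> cases b2 <;>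
    simp [Mt, fr, h1, h2] <;> omega

theorem ch_fr {b1 b2 : Bool} {x : ℤ × ℤ} : ∀ {L : List Crs} {X : Crs}, Ch X L →
    Ch (fr b1 b2 x X) (L.map (fr b1 b2 x))
  | [], _, _ => trivial
  | _ :: _, _, h => ⟨mt_fr h.1, ch_fr h.2⟩

theorem lst_fr {b1 b2 : Bool} {x : ℤ × ℤ} : ∀ {L : List Crs} {X : Crs},
    lst (fr b1 b2 x X) (L.map (fr b1 b2 x)) = fr b1 b2 x (lst X L)
  | [], _ => rfl
  | _ :: L, _ => lst_fr (L := L)

/-- The size of a rectangle. -/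
def Sz (s : ℤ) (κ : ℕ) (X : Crs) : Prop :=
  X.a ≤ X.b ∧ X.p ≤ X.q ∧
    (if X.d then s ≤ X.q - X.p ∧ X.b - X.a ≤ κ * s else s ≤ X.b - X.a ∧ X.q - X.p ≤ κ * s)

theorem sz_fr {b1 b2 : Bool} {x : ℤ × ℤ} {s : ℤ} {κ : ℕ} {X : Crs} (h : Sz s κ X) :
    Sz s κ (fr b1 b2 x X) := by
  obtain ⟨d, a, b, p, q⟩ := X
  obtain ⟨h1, h2, h3⟩ := h
  simp only at h1 h2 h3
  cases d <;> cases b1 <;> cases b2 <;> simp [Sz, fr] at h3 ⊢ <;>
    refine ⟨by omega, by omega, ?_, ?_⟩ <;> linarith [h3.1, h3.2]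

theorem ok_of_sz {s : ℤ} {κ : ℕ} {X : Crs} {T : Finset (ℤ × ℤ)} (h : Sz s κ X)
    (hT : sq X ⊆ (↑T : Set (ℤ × ℤ))) : X.Ok s κ T :=
  ⟨h.1, h.2.1, h.2.2, fun _ h1 h2 h3 h4 => Finset.mem_coe.1 (hT ⟨h1, h2, h3, h4⟩)⟩

/-- **Lower bound for a chain of rectangles in a frame.** -/
theorem low_fr {Q : ℝ} (K : Kit Q) (n κ : ℕ) : ∃ (a : ℝ) (s0 : ℤ), 0 < a ∧ a ≤ 1 ∧ 1 ≤ s0 ∧
    ∀ (c b1 b2 : Bool) (x : ℤ × ℤ) (s : ℤ) (X : Crs) (L : List Crs) (η : Cfg) (i j : Bool),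
      Good η → s0 ≤ s → (X :: L).length ≤ n → Ch X L → (∀ Y ∈ X :: L, Sz s κ Y) →
        a ≤ Pr Q (fn ((X :: L).map (fr b1 b2 x))) η (CC c (fn ((X :: L).map (fr b1 b2 x)))
          (Sd (pr c) (fr b1 b2 x X) i) (Sd (pr c) (fr b1 b2 x (lst X L)) j)) := by
  obtain ⟨a, s0, h1, h2, h3, h4⟩ := low_chain K n κ
  refine ⟨a, s0, h1, h2, h3, fun c b1 b2 x s X L η i j hη hs hn hc hX => ?_⟩
  refine h4 c s (fr b1 b2 x X) (L.map (fr b1 b2 x)) (fn ((X :: L).map (fr b1 b2 x))) η _ _ i j hη hs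
    (by simpa using hn) (ch_fr hc) (fun Y hY => ?_) subset_rfl ?_
  · rw [← List.map_cons] at hY
    obtain ⟨Z, hZ, rfl⟩ := List.mem_map.1 hY
    exact ok_of_sz (sz_fr (hX Z hZ)) (sq_fn (List.mem_map_of_mem hZ))
  · rw [lst_fr]

end Vale.Agent.P167.N.BAR
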