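import Vale.Agent.P167.N.BAR.Defs

/-!
# P167, `0 < q < 1`: lower bounds for the crossings of tubes

`low_chain`: a tube which contains a chain of rectangles, consecutive ones crossing each other, is
crossed by the colour `c` with a probability bounded below, the worst configuration outside
included. The rectangles may overlap in any way.
-/

set_option autoImplicit false

namespace Vale.Agent.P167.N.BAR

open Finset Relation Vale.Agent.P167 Vale.Agent.P167.FK Vale.Agent.P167.FKA Vale.Agent.P167.H192.TA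
  Vale.Agent.P167.H632 Vale.Agent.P167.H262 Vale.Agent.P167.H192.Q Vale.Agent.P167.N.H192.Q
  Vale.Agent.P167.H704 Vale.Agent.P167.H871
open Vale.Agent.P145.FB (PStep PConn)
open Vale.Agent.P153.Topo (Rect mem_rect)

/-- The sites of parity `e` on the first (`b = false`) or last (`b = true`) side of the rectangle. -/
def Sd (e : ℤ) (X : Crs) (b : Bool) : Set (ℤ × ℤ) :=
  {s | (s.1 + s.2) % 2 = e ∧ X.a ≤ s.1 ∧ s.1 ≤ X.b ∧ X.p ≤ s.2 ∧ s.2 ≤ X.q ∧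
    (if X.d then s.1 = (if b then X.b else X.a) else s.2 = (if b then X.q else X.p))}

/-- The rectangle `X` crosses the rectangle `Y`. -/
def Mt (X Y : Crs) : Prop :=
  (X.d = true ∧ Y.d = false ∧ X.a ≤ Y.a ∧ Y.b ≤ X.b ∧ Y.p ≤ X.p ∧ X.q ≤ Y.q) ∨
    (X.d = false ∧ Y.d = true ∧ Y.a ≤ X.a ∧ X.b ≤ Y.b ∧ X.p ≤ Y.p ∧ Y.q ≤ X.q)

/-- The squares of the rectangle. -/
def sq (X : Crs) : Set (ℤ × ℤ) := {v | X.a ≤ v.1 ∧ v.1 < X.b ∧ X.p ≤ v.2 ∧ v.2 < X.q}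

theorem pw_rect {F : Set (ℤ × ℤ)} {a b p q : ℤ} {u v : ℤ × ℤ} (h : PConn F (Rect a b p q) u v) :
    Pw (F ∩ {w | a ≤ w.1 ∧ w.1 < b ∧ p ≤ w.2 ∧ w.2 < q}) u v := by
  obtain ⟨h0, h1⟩ := h
  induction h1 with
  | refl => exact ReflTransGen.refl
  | @tail x y hx hxy ih =>
    have hxm : x ∈ Rect a b p q := (show PConn F (Rect a b p q) u x from ⟨h0, hx⟩).right_mem
    have hym := hxy.2
    rw [mem_rect] at hxm hym
    obtain ⟨⟨s1, s2, s3⟩, s4⟩ := hxy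
    refine ReflTransGen.tail ih ⟨s1, s2, s3, ?_⟩
    refine ⟨?_, ?_, ?_, ?_⟩ <;> dsimp only <;> omega

/-- The crossing of a rectangle, with its ends. -/
theorem ev_iff {c : Bool} {X : Crs} {ω : Cfg} (hab : X.a ≤ X.b) (hpq : X.p ≤ X.q)
    (h : ω ∈ X.Ev c) : ∃ s ∈ Sd (pr c) X false, ∃ t ∈ Sd (pr c) X true,
      PConn (cs c ω) (Rect X.a X.b X.p X.q) s t := by
  obtain ⟨d, a, b, p, q⟩ := X
  cases d
  · obtain ⟨s, t, h1, h2, h3, h4⟩ := h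
    have h5 := h4.left_mem
    have h6 := h4.right_mem
    have h7 := h4.parity
    rw [mem_rect] at h5 h6
    refine ⟨s, ⟨h3, h5.1, h5.2.1, h5.2.2.1, h5.2.2.2, ?_⟩, t,
      ⟨by rw [← h7]; exact h3, h6.1, h6.2.1, h6.2.2.1, h6.2.2.2, ?_⟩, h4⟩
    · simpa using h1
    · simpa using h2
  · obtain ⟨s, t, h1, h2, h3, h4⟩ := h
    have h5 := h4.left_mem
    have h6 := h4.right_mem
    have h7 := h4.parity
    rw [mem_rect] at h5 h6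
    refine ⟨s, ⟨h3, h5.1, h5.2.1, h5.2.2.1, h5.2.2.2, ?_⟩, t,
      ⟨by rw [← h7]; exact h3, h6.1, h6.2.1, h6.2.2.1, h6.2.2.2, ?_⟩, h4⟩
    · simpa using h1
    · simpa using h2

theorem Mt.symm {X Y : Crs} (h : Mt X Y) : Mt Y X := by
  rcases h with ⟨h1, h2, h3, h4, h5, h6⟩ | ⟨h1, h2, h3, h4, h5, h6⟩
  · exact Or.inr ⟨h2, h1, h3, h4, h5, h6⟩
  · exact Or.inl ⟨h2, h1, h3, h4, h5, h6⟩

/-- A crossing of `X` and a crossing of `Y` are joined. -/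
theorem mt_join {e : ℤ} {F T : Set (ℤ × ℤ)} {X Y : Crs} (hX : X.a ≤ X.b ∧ X.p ≤ X.q)
    (hY : Y.a ≤ Y.b ∧ Y.p ≤ Y.q) (hTX : sq X ⊆ T) (hTY : sq Y ⊆ T) (h : Mt X Y)
    {s t s' t' : ℤ × ℤ} (hs : s ∈ Sd e X false) (ht : t ∈ Sd e X true)
    (hs' : s' ∈ Sd e Y false) (ht' : t' ∈ Sd e Y true)
    (h1 : PConn F (Rect X.a X.b X.p X.q) s t) (h2 : PConn F (Rect Y.a Y.b Y.p Y.q) s' t') :
    Pw (F ∩ T) s s' := by
  have key : ∀ X Y : Crs, X.a ≤ X.b ∧ X.p ≤ X.q → Y.a ≤ Y.b ∧ Y.p ≤ Y.q → sq X ⊆ T → sq Y ⊆ T →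
      (X.d = true ∧ Y.d = false ∧ X.a ≤ Y.a ∧ Y.b ≤ X.b ∧ Y.p ≤ X.p ∧ X.q ≤ Y.q) →
      ∀ s t s' t' : ℤ × ℤ, s ∈ Sd e X false → t ∈ Sd e X true → s' ∈ Sd e Y false →
        t' ∈ Sd e Y true → PConn F (Rect X.a X.b X.p X.q) s t →
        PConn F (Rect Y.a Y.b Y.p Y.q) s' t' → Pw (F ∩ T) s s' := by
    intro X Y hX hY hTX hTY ⟨d1, d2, k1, k2, k3, k4⟩ s t s' t' hs ht hs' ht' h1 h2
    obtain ⟨g1, -, -, -, -, g2⟩ := hs
    obtain ⟨-, -, -, -, -, g3⟩ := ht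
    obtain ⟨g4, -, -, -, -, g5⟩ := hs'
    obtain ⟨-, -, -, -, -, g6⟩ := ht'
    rw [d1] at g2 g3
    rw [d2] at g5 g6
    simp only [if_true, Bool.false_eq_true, if_false] at g2 g3 g5 g6
    obtain ⟨z, m1, m2⟩ := meet (a := Y.a) (b := Y.b) (c := X.p) (d := X.q) (c' := Y.p) (d' := Y.q)
      (a' := X.a) (b' := X.b) (e := e) h2 (by omega) (by omega) g4 h1 (by omega) (by omega) g1
      hY.1 hX.2
    have e1 : Pw (F ∩ T) s z := Pw.mono (G := F ∩ T) (fun v hv => ⟨hv.1, hTX hv.2⟩) (pw_rect m2)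
    have e2 : Pw (F ∩ T) s' z := Pw.mono (G := F ∩ T) (fun v hv => ⟨hv.1, hTY hv.2⟩) (pw_rect m1)
    exact e1.trans e2.symm
  rcases h with h | ⟨d1, d2, k⟩
  · exact key X Y hX hY hTX hTY h s t s' t' hs ht hs' ht' h1 h2
  · exact (key Y X hY hX hTY hTX ⟨d2, d1, k⟩ s' t' s t hs' ht' hs ht h2 h1).symm

/-- A chain of rectangles, consecutive ones cross each other. -/
def Ch : Crs → List Crs → Prop
  | _, [] => True
  | X, Y :: L => Mt X Y ∧ Ch Y L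

/-- The last rectangle. -/
def lst : Crs → List Crs → Crs
  | X, [] => X
  | _, Y :: L => lst Y L

theorem lst_mem : ∀ (L : List Crs) (X : Crs), lst X L ∈ X :: L
  | [], _ => List.mem_cons_self
  | Y :: L, X => List.mem_cons_of_mem X (lst_mem L Y)

/-- The crossings of a chain of rectangles are joined. -/
theorem ch_join {c : Bool} {ω : Cfg} {T : Set (ℤ × ℤ)} : ∀ (L : List Crs) (X : Crs), Ch X L →
    (∀ Y ∈ X :: L, Y.a ≤ Y.b ∧ Y.p ≤ Y.q ∧ sq Y ⊆ T ∧ ω ∈ Y.Ev c) →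
    ∀ s ∈ Sd (pr c) X false, ∀ t ∈ Sd (pr c) X true,
      PConn (cs c ω) (Rect X.a X.b X.p X.q) s t → ∃ s' ∈ Sd (pr c) (lst X L) false,
        ∃ t' ∈ Sd (pr c) (lst X L) true, Pw (cs c ω ∩ T) s s' ∧
          PConn (cs c ω) (Rect (lst X L).a (lst X L).b (lst X L).p (lst X L).q) s' t'
  | [], X, _, _, s, hs, t, ht, h => ⟨s, hs, t, ht, ReflTransGen.refl, h⟩
  | Y :: L, X, hc, hL, s, hs, t, ht, h => by
    obtain ⟨a1, a2, a3, -⟩ := hL X List.mem_cons_self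
    obtain ⟨b1, b2, b3, b4⟩ := hL Y (List.mem_cons_of_mem _ List.mem_cons_self)
    obtain ⟨s1, k1, t1, k2, k3⟩ := ev_iff b1 b2 b4
    obtain ⟨s2, m1, t2, m2, m3, m4⟩ := ch_join L Y hc.2
      (fun Z hZ => hL Z (List.mem_cons_of_mem _ hZ)) s1 k1 t1 k2 k3
    exact ⟨s2, m1, t2, m2, (mt_join ⟨a1, a2⟩ ⟨b1, b2⟩ a3 b3 hc.1 hs ht k1 k2 h k3).trans m3, m4⟩

/-- A chain of crossings gives a crossing of the tube. -/
theorem cc_of_chain {c : Bool} {ω : Cfg} {T : Finset (ℤ × ℤ)} {A B : Set (ℤ × ℤ)} {X : Crs}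
    {L : List Crs} (hc : Ch X L)
    (hL : ∀ Y ∈ X :: L, Y.a ≤ Y.b ∧ Y.p ≤ Y.q ∧ sq Y ⊆ (↑T : Set (ℤ × ℤ)) ∧ ω ∈ Y.Ev c)
    {i j : Bool} (hA : Sd (pr c) X i ⊆ A) (hB : Sd (pr c) (lst X L) j ⊆ B) : ω ∈ CC c T A B := by
  obtain ⟨a1, a2, a3, a4⟩ := hL X List.mem_cons_self
  obtain ⟨b1, b2, b3, b4⟩ := hL _ (lst_mem L X)
  obtain ⟨s, k1, t, k2, k3⟩ := ev_iff a1 a2 a4
  obtain ⟨s', m1, t', m2, m3, m4⟩ := ch_join L X hc hL s k1 t k2 k3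
  have e1 : Pw (cs c ω ∩ (↑T : Set (ℤ × ℤ))) s t :=
    Pw.mono (G := cs c ω ∩ (↑T : Set (ℤ × ℤ))) (fun v hv => ⟨hv.1, a3 hv.2⟩) (pw_rect k3)
  have e2 : Pw (cs c ω ∩ (↑T : Set (ℤ × ℤ))) s' t' :=
    Pw.mono (G := cs c ω ∩ (↑T : Set (ℤ × ℤ))) (fun v hv => ⟨hv.1, b3 hv.2⟩) (pw_rect m4)
  cases i <;> cases j
  · exact ⟨s, hA k1, s', hB m1, m3⟩
  · exact ⟨s, hA k1, t', hB m2, m3.trans e2⟩
  · exact ⟨t, hA k2, s', hB m1, e1.symm.trans m3⟩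
  · exact ⟨t, hA k2, t', hB m2, (e1.symm.trans m3).trans e2⟩

theorem good_etac' (c : Bool) : Good (etac c) := good_etac c

/-- **The tube is crossed with a probability bounded below.** At most `n` rectangles, of width at
least `s` and length at most `κ s`. -/
theorem low_chain {Q : ℝ} (K : Kit Q) (n κ : ℕ) : ∃ (a : ℝ) (s0 : ℤ), 0 < a ∧ a ≤ 1 ∧ 1 ≤ s0 ∧
    ∀ (c : Bool) (s : ℤ) (X : Crs) (L : List Crs) (T : Finset (ℤ × ℤ)) (η : Cfg)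
      (A B : Set (ℤ × ℤ)) (i j : Bool), Good η → s0 ≤ s → (X :: L).length ≤ n → Ch X L →
      (∀ Y ∈ X :: L, Y.Ok s κ T) → Sd (pr c) X i ⊆ A → Sd (pr c) (lst X L) j ⊆ B →
        a ≤ Pr Q T η (CC c T A B) := by
  obtain ⟨a, s0, h1, h2, h3, h4⟩ := crs_ge K n κ
  refine ⟨a, s0, h1, h2, h3, fun c s X L T η A B i j hη hs hn hc hX hA hB => ?_⟩
  refine (h4 c s (X :: L) T η hη hs hn hX).trans (Pr_mono K.pos fun ω hω => ?_)
  refine cc_of_chain hc (fun Y hY => ⟨(hX Y hY).1, (hX Y hY).2.1, ?_, hω Y hY⟩) hA hB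
  rintro v ⟨v1, v2, v3, v4⟩
  exact Finset.mem_coe.2 ((hX Y hY).2.2.2 v v1 v2 v3 v4)

end Vale.Agent.P167.N.BAR
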