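import Vale.Agent.P167.N.BAR.Ring

/-!
# P167, `0 < q < 1`: the barrier in many rings

`pr_prod`: events of disjoint sets of squares with conditional probabilities at least `a`.
`bar_of_tubes`: **paths of one class cross `N` rings with a probability at most `(1 - a) ^ N`**, for
arbitrary walls.
-/

set_option autoImplicit false

namespace Vale.Agent.P167.N.BAR

open Finset Relation Vale.Agent.P167 Vale.Agent.P167.FK Vale.Agent.P167.FKA Vale.Agent.P167.H192.TA
  Vale.Agent.P167.H632 Vale.Agent.P167.H262 Vale.Agent.P167.H192.Q Vale.Agent.P167.N.H192.Q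
open Vale.Agent.P167.H259 (f_markov)
open Vale.Agent.P167.H906 (Chn ray tot deg two_zero)
open Vale.Agent.P145.FB (PStep PConn)

variable {Q a : ℝ} {c : Bool} {x : ℤ × ℤ} {n m : ℤ} {U D : Finset (ℤ × ℤ)} {η : Cfg}

theorem ring_congr {T' : Finset (ℤ × ℤ)} {E : Chn} {ω ω' : Cfg}
    (h : ∀ v ∈ T' ∩ U, ω v = ω' v) (hω : ω ∈ Ring c U T' E) : ω' ∈ Ring c U T' E := by
  obtain ⟨z, z', h1, h2, h3, h4⟩ := hω
  refine ⟨z, z', h1, h2, Pw.mn ?_ h3, h4⟩
  rintro v ⟨g1, g2, g3⟩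
  exact ⟨g1, g2, by rw [← h v (mem_inter.2 ⟨g2, g1⟩)]; exact g3⟩

/-- Independent trials. -/
theorem pr_prod (hQ : 0 < Q) (ha : a ≤ 1) (N : ℕ) (G : ℕ → Finset (ℤ × ℤ)) (E : ℕ → Set Cfg)
    (hη : Good η) (hG : ∀ j < N, G j ⊆ D)
    (hE : ∀ i < N, ∀ j < N, i < j → ∀ ω ω' : Cfg, (∀ v, v ∉ G j → ω v = ω' v) →
      (ω ∈ E i ↔ ω' ∈ E i))
    (hp : ∀ j < N, ∀ ζ : Cfg, Good ζ → a ≤ Pr Q (G j) ζ (E j)) :
    Pr Q D η {ω | ∀ j < N, ω ∉ E j} ≤ (1 - a) ^ N := by
  induction N with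
  | zero => rw [pow_zero]; exact FKA.Pr_le_one hQ _
  | succ N ih =>
    have h1 := ih (fun j hj => hG j (by omega)) (fun i hi j hj => hE i (by omega) j (by omega))
      (fun j hj => hp j (by omega))
    set F : Cfg → ℝ := {ω | ∀ j < N, ω ∉ E j}.indicator 1 with hF
    set F' : Cfg → ℝ := (E N)ᶜ.indicator 1 with hF'
    have e1 : Pr Q D η {ω | ∀ j < N + 1, ω ∉ E j} = Ex Q D η (fun ω => F ω * F' ω) := by
      unfold Pr
      congr 1
      funext ω
      by_cases h2 : ω ∈ E N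
      · rw [Set.indicator_of_notMem (show ω ∉ {ω | ∀ j < N + 1, ω ∉ E j} from
            fun h => h N (by omega) h2), hF',
          Set.indicator_of_notMem (show ω ∉ (E N)ᶜ from fun h => h h2), mul_zero]
      · by_cases h3 : ∀ j < N, ω ∉ E j
        · rw [Set.indicator_of_mem (show ω ∈ {ω | ∀ j < N + 1, ω ∉ E j} from fun j hj => ?_), hF,
            Set.indicator_of_mem (show ω ∈ {ω | ∀ j < N, ω ∉ E j} from h3), hF',
            Set.indicator_of_mem (show ω ∈ (E N)ᶜ from h2)]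
          · simp
          · rcases Nat.lt_succ_iff_lt_or_eq.1 hj with h4 | h4
            · exact h3 j h4
            · rw [h4]; exact h2
        · rw [Set.indicator_of_notMem (show ω ∉ {ω | ∀ j < N + 1, ω ∉ E j} from
              fun h => h3 fun j hj => h j (by omega)), hF,
            Set.indicator_of_notMem (show ω ∉ {ω | ∀ j < N, ω ∉ E j} from h3), zero_mul]
    have hInd : Ind (G N) F := by
      intro ω ω' h
      have h2 : (ω ∈ {ω : Cfg | ∀ j < N, ω ∉ E j}) ↔ (ω' ∈ {ω : Cfg | ∀ j < N, ω ∉ E j}) := by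
        constructor
        · intro h3 j hj h4
          exact h3 j hj ((hE j (by omega) N (by omega) hj ω ω' h).2 h4)
        · intro h3 j hj h4
          exact h3 j hj ((hE j (by omega) N (by omega) hj ω ω' h).1 h4)
      by_cases h3 : ω ∈ {ω : Cfg | ∀ j < N, ω ∉ E j}
      · rw [hF, Set.indicator_of_mem h3, Set.indicator_of_mem (h2.1 h3)]; rfl
      · rw [hF, Set.indicator_of_notMem h3, Set.indicator_of_notMem (fun h4 => h3 (h2.2 h4))]
    have h2 := markov_le f_markov f_good hQ (hG N (by omega)) hη hInd (fun ω => ind_nonneg _ _)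
      (F := F') (a := 1 - a) (fun ω hω => by
        have h3 := hp N (by omega) ω hω
        have h4 := FKA.Pr_compl (D := G N) (η := ω) hQ (E N)
        show Pr Q (G N) ω (E N)ᶜ ≤ 1 - a
        linarith)
    rw [e1, pow_succ, mul_comm]
    exact h2.trans (mul_le_mul_of_nonneg_left h1 (by linarith))

theorem Bq_mono' {x : ℤ × ℤ} {r R : ℤ} (h : r ≤ R) : Bq x r ⊆ Bq x R := by
  intro v hv
  unfold Bq at *
  rw [mem_product, mem_Ico, mem_Ico] at *
  omega

theorem exists_far (c : Bool) (U : Finset (ℤ × ℤ)) (x : ℤ × ℤ) (M : ℤ) :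
    ∃ z ∈ Bs c U, M ≤ nm (z - x) := by
  obtain ⟨K, hK⟩ : ∃ K : ℤ, ∀ v ∈ U, v.1 < K := by
    obtain ⟨K, hK⟩ := (U.image Prod.fst).bddAbove
    exact ⟨K + 1, fun v hv => by
      have := hK (Finset.mem_coe.2 (Finset.mem_image_of_mem _ hv))
      omega⟩
  have key : ∀ z : ℤ × ℤ, z.1 = max K (x.1 + |M|) ∨ z.1 = max K (x.1 + |M|) + 1 →
      (z.1 + z.2) % 2 = pr c → z ∈ Bs c U ∧ M ≤ nm (z - x) := by
    intro z hz hp
    have h1 := le_abs_self M
    refine ⟨⟨hp, z, fun h => ?_, by unfold Cor; omega⟩, ?_⟩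
    · have := hK z h
      omega
    · unfold nm
      rw [Prod.fst_sub]
      have h2 := le_abs_self (z.1 - x.1)
      exact le_trans (by omega) (le_max_left _ _)
  rcases pr_or' c with h | h
  · by_cases h1 : (max K (x.1 + |M|)) % 2 = 0
    · exact ⟨(max K (x.1 + |M|), 0), (key _ (Or.inl rfl) (by simp only; omega)).1,
        (key _ (Or.inl rfl) (by simp only; omega)).2⟩
    · exact ⟨(max K (x.1 + |M|) + 1, 0), (key _ (Or.inr rfl) (by simp only; omega)).1,
        (key _ (Or.inr rfl) (by simp only; omega)).2⟩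
  · by_cases h1 : (max K (x.1 + |M|)) % 2 = 1
    · exact ⟨(max K (x.1 + |M|), 0), (key _ (Or.inl rfl) (by simp only; omega)).1,
        (key _ (Or.inl rfl) (by simp only; omega)).2⟩
    · exact ⟨(max K (x.1 + |M|) + 1, 0), (key _ (Or.inr rfl) (by simp only; omega)).1,
        (key _ (Or.inr rfl) (by simp only; omega)).2⟩

theorem exists_near (c : Bool) {x v : ℤ × ℤ} {n : ℤ} (h : v ∈ Bq x n) :
    ∃ z : ℤ × ℤ, (z.1 + z.2) % 2 = pr c ∧ Cor v z ∧ nm (z - x) ≤ n := by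
  unfold Bq at h
  rw [mem_product, mem_Ico, mem_Ico] at h
  have key : ∀ z : ℤ × ℤ, Cor v z → nm (z - x) ≤ n := by
    intro z hz
    unfold Cor at hz
    unfold nm
    rw [Prod.fst_sub, Prod.snd_sub, max_le_iff, abs_le, abs_le]
    omega
  by_cases h1 : (v.1 + v.2) % 2 = pr c
  · exact ⟨v, h1, by unfold Cor; omega, key v (by unfold Cor; omega)⟩
  · refine ⟨(v.1 + 1, v.2), ?_, by unfold Cor; simp, key _ (by unfold Cor; simp)⟩
    rcases pr_or' c with h2 | h2 <;> rw [h2] at h1 ⊢ <;> simp only <;> omega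

/-- **Paths of one class cross many rings with a small probability**, arbitrary walls. -/
theorem bar_of_tubes (hQ : 0 < Q) (hQ1 : Q ≤ 1) (ha : a ≤ 1) {L s0 : ℤ} (hL : 2 ≤ L)
    (hs0 : 1 ≤ s0) (hT : Tubes Q a L s0) : BarQ Q (1 - a) L s0 := by
  intro c U D η x n N ρ u hη hD hn hU hv hρ hρc hu huc
  by_cases hne : ∃ s ∈ ρ, ∃ t ∈ u, Pw (↑U : Set (ℤ × ℤ)) s t
  swap
  · have : {ω : Cfg | ∃ s ∈ ρ, ∃ t ∈ u, Pw {v | v ∈ U ∧ ω v = !c} s t} = ∅ := by
      ext ω
      constructor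
      · rintro ⟨s, hs, t, ht, h⟩
        exact hne ⟨s, hs, t, ht, Pw.mn (fun v hv => Finset.mem_coe.2 hv.1) h⟩
      · exact fun h => absurd h (Set.notMem_empty ω)
    rw [this]
    have e : Pr Q D η ∅ = 0 := by
      unfold Pr
      rw [Set.indicator_empty]
      have := Ex_const (Q := Q) (D := D) (η := η) hQ 0
      exact this
    rw [e]
    exact pow_nonneg (by linarith) N
  obtain ⟨s, hs, t, ht, hst⟩ := hne
  obtain ⟨ζ, hζU, hζ, -, htp⟩ := exists_chn (hρ s hs).1 hst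
  have hζU' : ∀ v ∈ ζ.support, v ∈ U := fun v hv => Finset.mem_coe.1 (hζU v hv)
  obtain ⟨v, hv1, hv2⟩ := hv
  obtain ⟨z0, hz0, hz0c, hz0n⟩ := exists_near c hv1
  obtain ⟨z1, hz1, hz1n⟩ := exists_far c U x (n * L ^ N)
  have hκ := hU z0 ⟨hz0, v, hv2, hz0c⟩ z1 hz1
  have hn1 : 1 ≤ n := by omega
  have hpow : ∀ i j : ℕ, i ≤ j → n * L ^ i ≤ n * L ^ j := by
    intro i j hij
    refine mul_le_mul_of_nonneg_left ?_ (by omega)
    exact pow_le_pow_right₀ (by omega) hij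
  have hj : ∀ j, j < N → ∃ (T' : Finset (ℤ × ℤ)) (θ : Chn),
      (∀ v ∈ T', v ∈ Bq x (n * L ^ (j + 1)) ∧ v ∉ Bq x (n * L ^ j)) ∧
      Bdy (pr (!c)) θ s t ∧ (∀ v ∈ θ.support, v ∉ T') ∧
      ∀ (D : Finset (ℤ × ℤ)) (η : Cfg), Good η → T' ∩ U ⊆ D →
        a ≤ Pr Q D η (Ring c U T' (ζ + θ)) := by
    intro j hj
    have h1 := hpow 0 j (by omega)
    rw [pow_zero, mul_one] at h1
    have h2 := hpow (j + 1) N (by omega)
    have e1 : L * (n * L ^ j) = n * L ^ (j + 1) := by ring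
    obtain ⟨V1, V2, T, A, B, R, S, tp⟩ := hT c x (n * L ^ j) U z0 z1 (by omega) hz0
      (by omega) (by rw [e1]; omega) hκ
    rw [e1] at tp
    exact ring_low hQ hQ1 tp hζ hζU' (hρ s hs).1 htp ((hρ s hs).2.trans h1)
      (h2.trans (hu t ht))
  choose! T' θ g1 g2 g3 g4 using hj
  have hprod := pr_prod (D := D) hQ ha N (fun j => T' j ∩ U) (fun j => Ring c U (T' j) (ζ + θ j)) hη
    (fun j hj v hv => ?_) (fun i hi j hj hij ω ω' h => ?_)
    (fun j hj ζ' hζ' => g4 j hj _ ζ' hζ' (Finset.Subset.refl _))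
  · refine (FKA.Pr_mono hQ ?_).trans hprod
    rintro ω ⟨s', hs', t', ht', h⟩ j hj
    have h1 := hpow 0 j (by omega)
    rw [pow_zero, mul_one] at h1
    have h2 := hpow (j + 1) N (by omega)
    refine ring_block hU hζ hζU' (hρ s hs).1 (g2 j hj) (g3 j hj) (Pw.mn ?_ (hρc s hs s' hs'))
      (Pw.mn ?_ (huc t' ht' t ht)) h
    · rintro w ⟨k1, k2⟩
      exact ⟨k1, fun k3 => (g1 j hj w k3).2 (Bq_mono' h1 k2)⟩
    · rintro w ⟨k1, k2⟩
      exact ⟨k1, fun k3 => k2 (Bq_mono' h2 (g1 j hj w k3).1)⟩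
  · rw [mem_inter] at hv
    have h1 := hpow 0 j (by omega)
    rw [pow_zero, mul_one] at h1
    have h2 := hpow (j + 1) N (by omega)
    exact hD v hv.2 (Bq_mono' h2 (g1 j hj v hv.1).1) fun h3 => (g1 j hj v hv.1).2 (Bq_mono' h1 h3)
  · have key : ∀ v ∈ T' i ∩ U, v ∉ T' j ∩ U := by
      intro v hv hv'
      rw [mem_inter] at hv hv'
      exact (g1 j hj v hv'.1).2 (Bq_mono' (hpow (i + 1) j (by omega)) (g1 i hi v hv.1).1)
    exact ⟨ring_congr fun v hv => h v (key v hv), ring_congr fun v hv => (h v (key v hv)).symm⟩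

end Vale.Agent.P167.N.BAR
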