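import Vale.Agent.P167.N.BAR.Defs

/-!
# P167, `0 < q < 1`: the barrier in one ring with arbitrary walls

`Ring c U T E`: a path of the colour `c` of squares of `U ∩ T` joins two corners of walls (squares off
`U`) with different labels; the label is the winding number of the cycle `E`. `ring_low`: for one of the
two tubes its probability is bounded below, for all configurations outside. `ring_block`: it excludes
the paths of the colour `!c` of squares of `U` which are equivalent to the reference path.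
-/

set_option autoImplicit false

namespace Vale.Agent.P167.N.BAR

open Finset Relation Vale.Agent.P167 Vale.Agent.P167.FK Vale.Agent.P167.FKA Vale.Agent.P167.H192.TA
  Vale.Agent.P167.H632 Vale.Agent.P167.H262 Vale.Agent.P167.H192.Q Vale.Agent.P167.N.H192.Q
open Vale.Agent.P167.H906 (Chn ray tot deg two_zero)
open Vale.Agent.P145.FB (PStep PConn)

variable {Q a : ℝ} {c : Bool} {x : ℤ × ℤ} {n m : ℤ} {U D : Finset (ℤ × ℤ)} {η : Cfg}
  {V1 V2 : Set (ℤ × ℤ)} {T : Bool → Finset (ℤ × ℤ)} {A B R S : Bool → Set (ℤ × ℤ)}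

/-- The barrier in the tube `T`. -/
def Ring (c : Bool) (U T : Finset (ℤ × ℤ)) (E : Chn) : Set Cfg :=
  {ω | ∃ z z' : ℤ × ℤ, z ∈ Bs c U ∧ z' ∈ Bs c U ∧ Pw {v | v ∈ U ∧ v ∈ T ∧ ω v = c} z z' ∧
    wn E z ≠ wn E z'}

theorem pr_or' (c : Bool) : pr c = 0 ∨ pr c = 1 := by cases c <;> simp [pr]

theorem pr_ne (c : Bool) : pr c ≠ pr (!c) := by cases c <;> simp [pr]

/-- Two corners of the colour `c` of a square. -/
theorem step_of_two {F : Set (ℤ × ℤ)} {v z z' : ℤ × ℤ} (hv : v ∈ F) (h : Cor v z) (h' : Cor v z')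
    (hp : (z.1 + z.2) % 2 = (z'.1 + z'.2) % 2) (hne : z ≠ z') : PStep F z z' := by
  obtain ⟨v1, v2⟩ := v
  obtain ⟨z1, z2⟩ := z
  obtain ⟨w1, w2⟩ := z'
  simp only [Cor] at h h'
  simp only [ne_eq, Prod.mk.injEq, not_and] at hne
  simp only at hp
  refine ⟨by simp only; omega, by simp only; omega, ?_⟩
  have e1 : min z1 w1 = v1 := by omega
  have e2 : min z2 w2 = v2 := by omega
  simp only [e1, e2]
  exact hv

theorem wn_cor {E : Chn} (hE : Cy (pr (!c)) E) {v z z' : ℤ × ℤ} (h0 : E v = 0) (h : Cor v z)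
    (h' : Cor v z') (hz : (z.1 + z.2) % 2 = pr c) (hz' : (z'.1 + z'.2) % 2 = pr c) :
    wn E z = wn E z' := by
  by_cases hne : z = z'
  · rw [hne]
  · have h1 := step_of_two (F := {w | w = v}) rfl h h' (hz.trans hz'.symm) hne
    have h2 := wn_step hE (by rw [hz]; exact pr_ne c) (pr_or' _) h1
    have h3 := h1.2.2
    simp only [Set.mem_setOf_eq] at h3
    rw [h3, h0, add_zero] at h2
    exact h2.symm

theorem Pw.par {F : Set (ℤ × ℤ)} {u v : ℤ × ℤ} (h : Pw F u v) :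
    (v.1 + v.2) % 2 = (u.1 + u.2) % 2 := by
  induction h with
  | refl => rfl
  | @tail x y _ h1 ih =>
    have := h1.1
    have := h1.2.1
    omega

theorem Pw.rev {F : Set (ℤ × ℤ)} {u v : ℤ × ℤ} (h : Pw F u v) : Pw F v u := by
  induction h with
  | refl => exact ReflTransGen.refl
  | tail _ h1 ih => exact ReflTransGen.head h1.symm ih

theorem Pw.mn {F G : Set (ℤ × ℤ)} (hFG : F ⊆ G) {u v : ℤ × ℤ} (h : Pw F u v) : Pw G u v :=
  ReflTransGen.mono (fun _ _ k => ⟨k.1, k.2.1, hFG k.2.2⟩) u v h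

theorem cor_step {F : Set (ℤ × ℤ)} {u v : ℤ × ℤ} (h : PStep F u v) :
    Cor (min u.1 v.1, min u.2 v.2) u ∧ Cor (min u.1 v.1, min u.2 v.2) v := by
  have := h.1
  have := h.2.1
  unfold Cor
  simp only
  omega

/-- A path from `A'` to `B'`: the last site of `A'`. -/
theorem last_in {F : Set (ℤ × ℤ)} {A' : Set (ℤ × ℤ)} {W : Set (ℤ × ℤ)}
    (hA : ∀ z ∈ A', ∀ z', z' ∉ A' → PStep F z z' → z ∈ W) {u v : ℤ × ℤ} (hu : u ∈ A')
    (h : Pw F u v) (hv : v ∉ A') : ∃ z ∈ A', z ∈ W ∧ Pw F z v := by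
  have key : ∀ w, Pw F u w → w ∈ A' ∨ ∃ z ∈ A', z ∈ W ∧ Pw F z w := by
    intro w hw
    induction hw with
    | refl => exact Or.inl hu
    | @tail x y _ hxy ih =>
      rcases ih with ih | ⟨z, h1, h2, h3⟩
      · by_cases hy : y ∈ A'
        · exact Or.inl hy
        · exact Or.inr ⟨x, ih, hA x ih y hy hxy, ReflTransGen.single hxy⟩
      · exact Or.inr ⟨z, h1, h2, h3.tail hxy⟩
  rcases key v h with h1 | h1
  · exact absurd h1 hv
  · exact h1

theorem zmod2 (p q r s : ZMod 2) (h : p + q + (r + s) = 1) : p ≠ q ∨ r ≠ s := by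
  revert p q r s; decide

theorem zmod2' (p q r : ZMod 2) (h : p ≠ q) : r = p ∨ r = q := by
  revert p q r; decide

/-- **The barrier in one ring.** -/
theorem ring_low (hQ : 0 < Q) (hQ1 : Q ≤ 1) (tp : TubePair Q a c x n m U V1 V2 T A B R S)
    {ζ : Chn} {s t : ℤ × ℤ} (hζ : Bdy (pr (!c)) ζ s t) (hζU : ∀ v ∈ ζ.support, v ∈ U)
    (hs : (s.1 + s.2) % 2 = pr (!c)) (ht : (t.1 + t.2) % 2 = pr (!c)) (hsn : nm (s - x) ≤ n)
    (htm : m ≤ nm (t - x)) : ∃ (T' : Finset (ℤ × ℤ)) (ρ : Chn),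
      (∀ v ∈ T', v ∈ Bq x m ∧ v ∉ Bq x n) ∧ Bdy (pr (!c)) ρ s t ∧ (∀ v ∈ ρ.support, v ∉ T') ∧
      ∀ (D : Finset (ℤ × ℤ)) (η : Cfg), Good η → T' ∩ U ⊆ D →
        a ≤ Pr Q D η (Ring c U T' (ζ + ρ)) := by
  obtain ⟨ρ, hρ, hw⟩ := tp.wind s t hs ht hsn htm
  obtain ⟨z1, hz1⟩ := tp.ne1
  obtain ⟨z2, hz2⟩ := tp.ne2
  obtain ⟨i, hi⟩ : ∃ i, wn (ζ + ρ i) z1 ≠ wn (ζ + ρ i) z2 := by
    have h1 := hw z1 hz1 z2 hz2
    rw [wn_add, wn_add] at h1
    have h2 : wn (ζ + ρ false) z1 + wn (ζ + ρ false) z2 +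
        (wn (ζ + ρ true) z1 + wn (ζ + ρ true) z2) = 1 := by
      rw [wn_add, wn_add, wn_add, wn_add]
      calc _ = (wn (ρ false) z1 + wn (ρ true) z1 + (wn (ρ false) z2 + wn (ρ true) z2)) +
            (wn ζ z1 + wn ζ z1) + (wn ζ z2 + wn ζ z2) := by ring
        _ = 1 := by rw [h1, two_zero, two_zero, add_zero, add_zero]
    rcases zmod2 _ _ _ _ h2 with h | h
    · exact ⟨false, h⟩
    · exact ⟨true, h⟩
  refine ⟨T i, ρ i, tp.ring i, (hρ i).1, (hρ i).2, fun D η hη hD => ?_⟩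
  set E : Chn := ζ + ρ i with hE
  have hEc : Cy (pr (!c)) E := hζ.cy2 (hρ i).1
  have hE0 : ∀ v ∈ T i, v ∉ U → E v = 0 := by
    intro v hv hvU
    rw [hE, Finsupp.add_apply, not_mem_supp fun h => hvU (hζU v h),
      not_mem_supp fun h => (hρ i).2 v h hv, add_zero]
  have hlab : ∀ v ∈ T i, v ∉ U → ∀ z z' : ℤ × ℤ, Cor v z → Cor v z' → (z.1 + z.2) % 2 = pr c →
      (z'.1 + z'.2) % 2 = pr c → wn E z = wn E z' := fun v hv hvU z z' h h' hz hz' =>
    wn_cor hEc (hE0 v hv hvU) h h' hz hz'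
  have hV1 : ∀ z ∈ V1, wn E z = wn E z1 := fun z hz =>
    (wn_path hEc (pr_or' _) (by rw [tp.par1 _ hz1]; exact pr_ne c) (tp.con1 i z1 hz1 z hz)
      fun v hv => hE0 v hv.1 hv.2)
  have hV2 : ∀ z ∈ V2, wn E z = wn E z2 := fun z hz =>
    (wn_path hEc (pr_or' _) (by rw [tp.par2 _ hz2]; exact pr_ne c) (tp.con2 i z2 hz2 z hz)
      fun v hv => hE0 v hv.1 hv.2)
  -- the walls with a label
  set Wl : ZMod 2 → Set (ℤ × ℤ) := fun l => {z | (z.1 + z.2) % 2 = pr c ∧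
    (∃ v ∈ T i, v ∉ U ∧ Cor v z) ∧ wn E z = l} with hWl
  set A' : Set (ℤ × ℤ) := R i ∪ V1 ∪ {z | z ∈ Wl (wn E z1) ∧ z ∉ S i} with hA'
  set B' : Set (ℤ × ℤ) := S i ∪ V2 ∪ {z | z ∈ Wl (wn E z2) ∧ z ∉ R i} with hB'
  have hdisj := tp.disj i
  rw [Set.disjoint_left] at hdisj
  have hAB : ∀ z, z ∈ A' → z ∉ B' := by
    rintro z (hz | hz) (hz' | hz')
    · exact hdisj hz hz'
    · rcases hz with hz | hz
      · exact hz'.2 hz
      · have h1 := hV1 z hz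
        have h2 := hz'.1.2.2
        exact hi (h1.symm.trans h2)
    · rcases hz' with hz' | hz'
      · exact hz.2 hz'
      · have h1 := hV2 z hz'
        have h2 := hz.1.2.2
        exact hi (h2.symm.trans h1)
    · exact hi (hz.1.2.2.symm.trans hz'.1.2.2)
  have hW1 : ∀ z ∈ V1, z ∈ Wl (wn E z1) := fun z hz => ⟨tp.par1 z hz, tp.wall1 i z hz, hV1 z hz⟩
  have hW2 : ∀ z ∈ V2, z ∈ Wl (wn E z2) := fun z hz => ⟨tp.par2 z hz, tp.wall2 i z hz, hV2 z hz⟩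
  -- the estimate
  have hlow := rough_c (c := c) (L := T i \ U) (D := D) (S := T i) hQ hQ1 hη (tp.hZ i) (tp.hA i)
    (tp.hB i) (A' := A') (B' := B')
    ((tp.endA i).trans Set.subset_union_left) ((tp.endB i).trans Set.subset_union_left)
    (fun e he heT => ?_) ?_
  · refine (tp.low i).trans (hlow.trans (FKA.Pr_mono hQ ?_))
    rintro ω ⟨u, hu, v, hv, h⟩
    set F : Set (ℤ × ℤ) := {v | v ∈ U ∧ v ∈ T i ∧ ω v = c} with hF
    have h' : Pw F u v := by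
      refine Pw.mn ?_ h
      rintro w ⟨hw1, hw2⟩
      rw [Finset.mem_coe, mem_sdiff, mem_sdiff] at hw2
      have hw3 : w ∈ U := by
        by_contra hwU
        exact hw2.2 ⟨hw2.1, hwU⟩
      exact ⟨hw3, hw2.1, hw1⟩
    have hl1 : ∀ y ∈ A', ∀ y', y' ∉ A' → PStep F y y' → y ∈ Wl (wn E z1) := by
      intro y hy y' hy' hstep
      obtain ⟨hc1, hc2⟩ := cor_step hstep
      have hyT := hstep.2.2.2.1
      rcases hy with (hy | hy) | hy
      · exfalso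
        refine hy' (Or.inl (tp.stepR i _ hyT y y' hc1 hc2 ?_ hy))
        have := Pw.par (F := F) (ReflTransGen.single hstep)
        rw [this]
        exact tp.parR i y hy
      · exact hW1 y hy
      · exact hy.1
    have hl2 : ∀ y ∈ B', ∀ y', y' ∉ B' → PStep F y y' → y ∈ Wl (wn E z2) := by
      intro y hy y' hy' hstep
      obtain ⟨hc1, hc2⟩ := cor_step hstep
      have hyT := hstep.2.2.2.1
      rcases hy with (hy | hy) | hy
      · exfalso
        refine hy' (Or.inl (tp.stepS i _ hyT y y' hc1 hc2 ?_ hy))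
        have := Pw.par (F := F) (ReflTransGen.single hstep)
        rw [this]
        exact tp.parS i y hy
      · exact hW2 y hy
      · exact hy.1
    obtain ⟨z, hz1', hz2', hz3⟩ := last_in hl1 hu h' (fun h2 => hAB v h2 hv)
    obtain ⟨z', hz1'', hz2'', hz3'⟩ := last_in hl2 hv (Pw.rev hz3) (hAB z hz1')
    obtain ⟨g1, ⟨w, g2, g3, g4⟩, g5⟩ := hz2'
    obtain ⟨k1, ⟨w', k2, k3, k4⟩, k5⟩ := hz2''
    refine ⟨z', z, ⟨k1, w', k3, k4⟩, ⟨g1, w, g3, g4⟩, hz3', ?_⟩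
    rw [g5, k5]
    exact hi.symm
  · -- the walls
    rw [mem_sdiff] at he
    by_cases hR : ∃ z, Cor e z ∧ z ∈ R i
    · obtain ⟨z, hz, hzR⟩ := hR
      exact Or.inl fun y hy hyp => Or.inl (tp.stepR i e heT z y hz hy hyp hzR)
    by_cases hS : ∃ z, Cor e z ∧ z ∈ S i
    · obtain ⟨z, hz, hzS⟩ := hS
      exact Or.inr fun y hy hyp => Or.inl (tp.stepS i e heT z y hz hy hyp hzS)
    push Not at hR hS
    by_cases hl : ∃ y, Cor e y ∧ (y.1 + y.2) % 2 = pr c ∧ wn E y = wn E z1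
    · obtain ⟨y, hy1, hy2, hy3⟩ := hl
      refine Or.inl fun z hz hzp => Or.inr ⟨⟨hzp, ⟨e, heT, he.2, hz⟩, ?_⟩, hS z hz⟩
      rw [hlab e heT he.2 z y hz hy1 hzp hy2, hy3]
    · push Not at hl
      refine Or.inr fun z hz hzp => Or.inr ⟨⟨hzp, ⟨e, heT, he.2, hz⟩, ?_⟩, hR z hz⟩
      exact (zmod2' _ _ _ hi).resolve_left (hl z hz hzp)
  · -- the squares
    intro v hv
    rw [mem_sdiff, mem_sdiff] at hv
    refine hD (mem_inter.2 ⟨hv.1, ?_⟩)
    by_contra hvU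
    exact hv.2 ⟨hv.1, hvU⟩

/-- **Blocking.** -/
theorem ring_block (hU : NoHole c U) {T' : Finset (ℤ × ℤ)} {ζ ρ : Chn} {s t : ℤ × ℤ}
    (hζ : Bdy (pr (!c)) ζ s t) (hζU : ∀ v ∈ ζ.support, v ∈ U) (hs : (s.1 + s.2) % 2 = pr (!c))
    (hρ : Bdy (pr (!c)) ρ s t) (hρT : ∀ v ∈ ρ.support, v ∉ T') {s' t' : ℤ × ℤ}
    (h1 : Pw {v | v ∈ U ∧ v ∉ T'} s s') (h3 : Pw {v | v ∈ U ∧ v ∉ T'} t' t) {ω : Cfg}
    (h2 : Pw {v | v ∈ U ∧ ω v = !c} s' t') : ω ∉ Ring c U T' (ζ + ρ) := by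
  rintro ⟨z, z', hz, hz', hzz, hne⟩
  obtain ⟨f1, a1, b1, -, p1⟩ := exists_chn hs h1
  obtain ⟨f2, a2, b2, -, p2⟩ := exists_chn p1 h2
  obtain ⟨f3, a3, b3, -, p3⟩ := exists_chn p2 h3
  have hf : Bdy (pr (!c)) (f1 + f2 + f3) s t := (b1.add b2).add b3
  have hcz : (z.1 + z.2) % 2 ≠ pr (!c) := by rw [hz.1]; exact pr_ne c
  have e1 : wn (f1 + f2 + f3 + ρ) z' = wn (f1 + f2 + f3 + ρ) z := by
    refine wn_path (hf.cy2 hρ) (pr_or' _) hcz hzz fun v hv => ?_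
    rw [Finsupp.add_apply, Finsupp.add_apply, Finsupp.add_apply,
      not_mem_supp fun h => (a1 v h).2 hv.2.1, not_mem_supp fun h => ?_,
      not_mem_supp fun h => (a3 v h).2 hv.2.1, not_mem_supp fun h => hρT v h hv.2.1]
    · simp
    · have h4 := (a2 v h).2
      rw [hv.2.2] at h4
      cases c <;> simp at h4
  have e2 : wn (f1 + f2 + f3 + ζ) z' = wn (f1 + f2 + f3 + ζ) z := by
    refine wn_path (hf.cy2 hζ) (pr_or' _) hcz (hU z hz z' hz') fun v hv => ?_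
    have hvU : v ∉ U := fun h => hv (Finset.mem_coe.2 h)
    rw [Finsupp.add_apply, Finsupp.add_apply, Finsupp.add_apply,
      not_mem_supp fun h => hvU (a1 v h).1, not_mem_supp fun h => hvU (a2 v h).1,
      not_mem_supp fun h => hvU (a3 v h).1, not_mem_supp fun h => hvU (hζU v h)]
    simp
  refine hne ?_
  have e3 : ∀ y, wn (ζ + ρ) y = wn (f1 + f2 + f3 + ρ) y + wn (f1 + f2 + f3 + ζ) y := by
    intro y
    rw [wn_add, wn_add (f1 + f2 + f3), wn_add (f1 + f2 + f3)]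
    calc _ = wn ζ y + wn ρ y + (wn (f1 + f2 + f3) y + wn (f1 + f2 + f3) y) := by
          rw [two_zero, add_zero]
      _ = _ := by ring
  rw [e3, e3, e1, e2]

end Vale.Agent.P167.N.BAR
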