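import Vale.Agent.P167.N.BAR.Fr

/-!
# P167, `0 < q < 1`: the two tubes of a ring

`hz_of`: the complement of a tube is connected. `LF m m'` (a C-shape: three rectangles) and `LT m m'`
(one full turn: five rectangles): the two tubes between the windows `[-3m, 3m] × [m, 3m]` and
`[-3m', 3m'] × [m', 3m']`.
-/

set_option autoImplicit false

namespace Vale.Agent.P167.N.BAR

open Finset Relation Vale.Agent.P167 Vale.Agent.P167.FK Vale.Agent.P167.FKA Vale.Agent.P167.H192.TA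
  Vale.Agent.P167.H632 Vale.Agent.P167.H262 Vale.Agent.P167.H192.Q Vale.Agent.P167.N.H192.Q
  Vale.Agent.P167.H704 Vale.Agent.P167.H871 Vale.Agent.P167.H906
open Vale.Agent.P145.FB (PStep PConn)
open Vale.Agent.P153.Topo (Rect mem_rect)

/-- The closed rectangle (sites). -/
def st (X : Crs) : Set (ℤ × ℤ) := {z | X.a ≤ z.1 ∧ z.1 ≤ X.b ∧ X.p ≤ z.2 ∧ z.2 ≤ X.q}

/-- Two rectangles have a common square. -/
def Ov (X Y : Crs) : Prop := max X.a Y.a < min X.b Y.b ∧ max X.p Y.p < min X.q Y.q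

/-- Consecutive rectangles have a common square. -/
def Oc : Crs → List Crs → Prop
  | X, [] => X.a < X.b ∧ X.p < X.q
  | X, Y :: L => Ov X Y ∧ Oc Y L

theorem Oc.pos {X : Crs} : ∀ {L : List Crs}, Oc X L → X.a < X.b ∧ X.p < X.q
  | [], h => h
  | _ :: _, h => by
    have h1 := h.1.1
    have h2 := h.1.2
    omega

theorem ov_fr {b1 b2 : Bool} {x : ℤ × ℤ} {X Y : Crs} (h : Ov X Y) :
    Ov (fr b1 b2 x X) (fr b1 b2 x Y) := by
  obtain ⟨h1, h2⟩ := h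
  cases b1 <;> cases b2 <;> simp only [Ov, fr, if_true, if_false, Bool.false_eq_true] <;>
    refine ⟨by omega, by omega⟩

theorem oc_fr {b1 b2 : Bool} {x : ℤ × ℤ} : ∀ {L : List Crs} {X : Crs}, Oc X L →
    Oc (fr b1 b2 x X) (L.map (fr b1 b2 x))
  | [], _, h => by
    obtain ⟨h1, h2⟩ := h
    cases b1 <;> cases b2 <;>
      simp only [Oc, fr, if_true, if_false, Bool.false_eq_true, List.map_nil] <;>
      refine ⟨by omega, by omega⟩
  | _ :: _, _, h => ⟨ov_fr h.1, oc_fr h.2⟩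

theorem ex_site {X Y : Crs} (h : Ov X Y) (e : ℤ) : ∃ w ∈ st X, w ∈ st Y ∧
    e % 2 = (w.1 + w.2) % 2 := by
  obtain ⟨h1, h2⟩ := h
  by_cases h3 : e % 2 = (max X.a Y.a + max X.p Y.p) % 2
  · exact ⟨(max X.a Y.a, max X.p Y.p), ⟨by simp only; omega, by simp only; omega,
      by simp only; omega, by simp only; omega⟩, ⟨by simp only; omega, by simp only; omega,
      by simp only; omega, by simp only; omega⟩, h3⟩
  · exact ⟨(max X.a Y.a + 1, max X.p Y.p), ⟨by simp only; omega, by simp only; omega,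
      by simp only; omega, by simp only; omega⟩, ⟨by simp only; omega, by simp only; omega,
      by simp only; omega, by simp only; omega⟩, by simp only; omega⟩

theorem oc_conn {F : Set (ℤ × ℤ)} : ∀ (L : List Crs) (X : Crs), Oc X L →
    (∀ Y ∈ X :: L, sq Y ⊆ F) → ∀ Y ∈ X :: L, ∀ s ∈ st X, ∀ t ∈ st Y,
      (s.1 + s.2) % 2 = (t.1 + t.2) % 2 → Pw F s t
  | L, X, hc, hF, Y, hY, s, hs, t, ht, hp => by
    have hX := hc.pos
    have e1 : (↑(Rsq X.a X.b X.p X.q) : Set (ℤ × ℤ)) ⊆ F := fun v hv => by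
      rw [Finset.mem_coe, mem_Rsq] at hv
      exact hF X List.mem_cons_self ⟨hv.1, hv.2.1, hv.2.2.1, hv.2.2.2⟩
    rcases List.mem_cons.1 hY with rfl | hY
    · exact rect_conn hX.1 hX.2 e1 hs ht hp
    · cases L with
      | nil => exact absurd hY (by simp)
      | cons Z L =>
        obtain ⟨w, w1, w2, w3⟩ := ex_site hc.1 (s.1 + s.2)
        exact ReflTransGen.trans (rect_conn hX.1 hX.2 e1 hs w1 w3) (oc_conn L Z hc.2
          (fun W hW => hF W (List.mem_cons_of_mem _ hW)) Y hY w w2 t ht (w3.symm.trans hp))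

theorem ex_st {X : Crs} (h : X.a < X.b ∧ X.p < X.q) (e : ℤ) : ∃ w ∈ st X,
    e % 2 = (w.1 + w.2) % 2 := by
  obtain ⟨w, w1, -, w3⟩ := ex_site (X := X) (Y := X) ⟨by omega, by omega⟩ e
  exact ⟨w, w1, w3⟩

/-- **The complement of a tube is connected** (in every frame). -/
theorem hz_of {L : List Crs} {M₀ : ℤ} (h : ∀ M, M₀ ≤ M → ∃ (G : Crs) (Gs : List Crs), Oc G Gs ∧
    (∀ Y ∈ G :: Gs, ∀ v ∈ sq Y, v ∉ fn L) ∧ ∀ v : ℤ × ℤ, v ∉ fn L → -M ≤ v.1 → v.1 < M →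
      -M ≤ v.2 → v.2 < M → ∃ Y ∈ G :: Gs, v ∈ sq Y) (b1 b2 : Bool) (x : ℤ × ℤ) (c : Bool) :
    ∀ s ∈ Bs c (fn (L.map (fr b1 b2 x))), ∀ t ∈ Bs c (fn (L.map (fr b1 b2 x))),
      Pw (↑(fn (L.map (fr b1 b2 x))) : Set (ℤ × ℤ))ᶜ s t := by
  rintro s ⟨s1, v, v1, v2⟩ t ⟨t1, w, w1, w2⟩
  obtain ⟨G, Gs, g1, g2, g3⟩ := h (max M₀ (|(gs b1 b2 x v).1| + |(gs b1 b2 x v).2| +
    |(gs b1 b2 x w).1| + |(gs b1 b2 x w).2| + 1)) (le_max_left _ _)
  have hF : ∀ Y ∈ (fr b1 b2 x G) :: Gs.map (fr b1 b2 x),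
      sq Y ⊆ (↑(fn (L.map (fr b1 b2 x))) : Set (ℤ × ℤ))ᶜ := by
    intro Y hY u hu hu'
    rw [← List.map_cons] at hY
    obtain ⟨Z, hZ, rfl⟩ := List.mem_map.1 hY
    exact g2 Z hZ _ (mem_sq_fr.1 hu) (mem_fn_fr.1 (Finset.mem_coe.1 hu'))
  obtain ⟨y, y1, y2⟩ := ex_st (oc_fr (b1 := b1) (b2 := b2) (x := x) g1).pos (pr c)
  have key : ∀ u z : ℤ × ℤ, u ∉ fn (L.map (fr b1 b2 x)) → Cor u z → (z.1 + z.2) % 2 = pr c →
      |(gs b1 b2 x u).1| + |(gs b1 b2 x u).2| + 1 ≤ max M₀ (|(gs b1 b2 x v).1| +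
        |(gs b1 b2 x v).2| + |(gs b1 b2 x w).1| + |(gs b1 b2 x w).2| + 1) →
      Pw (↑(fn (L.map (fr b1 b2 x))) : Set (ℤ × ℤ))ᶜ y z := by
    intro u z hu hz hp hm
    have a1 := abs_le.1 (le_refl |(gs b1 b2 x u).1|)
    have a2 := abs_le.1 (le_refl |(gs b1 b2 x u).2|)
    have a3 := abs_nonneg (gs b1 b2 x u).1
    have a4 := abs_nonneg (gs b1 b2 x u).2
    obtain ⟨Y, hY, h1⟩ := g3 (gs b1 b2 x u) (fun h => hu (mem_fn_fr.2 h)) (by omega) (by omega)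
      (by omega) (by omega)
    have h2 := mem_sq_fr (b1 := b1) (b2 := b2) (x := x).2 h1
    refine oc_conn _ _ (oc_fr g1) hF (fr b1 b2 x Y) (by
      rw [← List.map_cons]
      exact List.mem_map_of_mem hY) y y1 z ?_ ?_
    · obtain ⟨k1, k2, k3, k4⟩ := h2
      obtain ⟨m1, m2⟩ := hz
      refine ⟨?_, ?_, ?_, ?_⟩ <;> omega
    · rw [← y2, hp]
      cases c <;> simp [pr]
  have p1 := abs_nonneg (gs b1 b2 x v).1
  have p2 := abs_nonneg (gs b1 b2 x v).2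
  have p3 := abs_nonneg (gs b1 b2 x w).1
  have p4 := abs_nonneg (gs b1 b2 x w).2
  exact (key v s v1 v2 s1 (by omega)).symm.trans (key w t w1 w2 t1 (by omega))

/-! ### Coordinates -/

/-- The square with the given coordinates. -/
def gi (b1 b2 : Bool) (x w : ℤ × ℤ) : ℤ × ℤ :=
  if b1 then (if b2 then (x.1 - 1 - w.2, x.2 + w.1) else (x.1 + w.2, x.2 + w.1))
  else (if b2 then (x.1 + w.1, x.2 - 1 - w.2) else (x.1 + w.1, x.2 + w.2))

theorem gs_gi (b1 b2 : Bool) (x w : ℤ × ℤ) : gs b1 b2 x (gi b1 b2 x w) = w := by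
  cases b1 <;> cases b2 <;> simp [gs, gi]

theorem gi_gs (b1 b2 : Bool) (x w : ℤ × ℤ) : gi b1 b2 x (gs b1 b2 x w) = w := by
  cases b1 <;> cases b2 <;> simp [gs, gi]

theorem cor_fr {b1 b2 : Bool} {x v z : ℤ × ℤ} :
    Cor v z ↔ Cor (gs b1 b2 x v) (gz b1 b2 x z) := by
  cases b1 <;> cases b2 <;> simp only [Cor, gs, gz, if_true, if_false, Bool.false_eq_true] <;>
    omega

theorem nm_fr {b1 b2 : Bool} {x z : ℤ × ℤ} : nm (gz b1 b2 x z) = nm (z - x) := by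
  cases b1 <;> cases b2 <;>
    simp only [nm, gz, if_true, if_false, Bool.false_eq_true, Prod.fst_sub, Prod.snd_sub]
  · rw [show x.2 - z.2 = -(z.2 - x.2) by ring, abs_neg]
  · exact max_comm _ _
  · rw [show x.1 - z.1 = -(z.1 - x.1) by ring, abs_neg]
    exact max_comm _ _

theorem mem_Bq_fr {b1 b2 : Bool} {x v : ℤ × ℤ} {R : ℤ} : v ∈ Bq x R ↔
    -R ≤ (gs b1 b2 x v).1 ∧ (gs b1 b2 x v).1 < R ∧ -R ≤ (gs b1 b2 x v).2 ∧
      (gs b1 b2 x v).2 < R := by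
  rw [Bq, Finset.mem_product, Finset.mem_Ico, Finset.mem_Ico]
  cases b1 <;> cases b2 <;> simp only [gs, if_true, if_false, Bool.false_eq_true] <;> omega

/-- The ends of a horizontal rectangle in a frame. -/
theorem mem_sd_fr {b1 b2 : Bool} {x z : ℤ × ℤ} {e a b p q : ℤ} {i : Bool} :
    z ∈ Sd e (fr b1 b2 x ⟨true, a, b, p, q⟩) i ↔ (z.1 + z.2) % 2 = e ∧
      a ≤ (gz b1 b2 x z).1 ∧ (gz b1 b2 x z).1 ≤ b ∧ p ≤ (gz b1 b2 x z).2 ∧
        (gz b1 b2 x z).2 ≤ q ∧ (gz b1 b2 x z).1 = if i then b else a := by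
  cases b1 <;> cases b2 <;> cases i <;>
    simp only [Sd, fr, gz, if_true, if_false, Bool.false_eq_true, Set.mem_ofPred_eq, Bool.not_true] <;>
    constructor <;> rintro ⟨h0, h1, h2, h3, h4, h5⟩ <;> refine ⟨h0, ?_, ?_, ?_, ?_, ?_⟩ <;> omega

/-! ### The two tubes -/

/-- The C-shape. -/
def LF (m m' : ℤ) : List Crs :=
  [⟨true, -(5 * m'), 3 * m, m, 3 * m⟩, ⟨false, -(5 * m'), -(3 * m'), m, 3 * m'⟩,
    ⟨true, -(5 * m'), 3 * m', m', 3 * m'⟩]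

/-- The full turn. -/
def LT (m m' : ℤ) : List Crs :=
  [⟨true, -(5 * m), 3 * m, m, 3 * m⟩, ⟨false, -(5 * m), -(3 * m), -(3 * m), 3 * m⟩,
    ⟨true, -(5 * m), 5 * m', -(3 * m), -m⟩, ⟨false, 3 * m', 5 * m', -(3 * m), 3 * m'⟩,
    ⟨true, -(3 * m'), 5 * m', m', 3 * m'⟩]

theorem mem_LF {m m' : ℤ} {v : ℤ × ℤ} : v ∈ fn (LF m m') ↔
    (-(5 * m') ≤ v.1 ∧ v.1 < 3 * m ∧ m ≤ v.2 ∧ v.2 < 3 * m) ∨
    (-(5 * m') ≤ v.1 ∧ v.1 < -(3 * m') ∧ m ≤ v.2 ∧ v.2 < 3 * m') ∨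
    (-(5 * m') ≤ v.1 ∧ v.1 < 3 * m' ∧ m' ≤ v.2 ∧ v.2 < 3 * m') := by
  simp [LF, fn, mem_Rsq]

theorem mem_LT {m m' : ℤ} {v : ℤ × ℤ} : v ∈ fn (LT m m') ↔
    (-(5 * m) ≤ v.1 ∧ v.1 < 3 * m ∧ m ≤ v.2 ∧ v.2 < 3 * m) ∨
    (-(5 * m) ≤ v.1 ∧ v.1 < -(3 * m) ∧ -(3 * m) ≤ v.2 ∧ v.2 < 3 * m) ∨
    (-(5 * m) ≤ v.1 ∧ v.1 < 5 * m' ∧ -(3 * m) ≤ v.2 ∧ v.2 < -m) ∨
    (3 * m' ≤ v.1 ∧ v.1 < 5 * m' ∧ -(3 * m) ≤ v.2 ∧ v.2 < 3 * m') ∨
    (-(3 * m') ≤ v.1 ∧ v.1 < 5 * m' ∧ m' ≤ v.2 ∧ v.2 < 3 * m') := by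
  simp [LT, fn, mem_Rsq]

theorem cov_LF {m m' : ℤ} (h0 : 0 < m) (h : 5 * m ≤ m') : ∀ M, 6 * m' ≤ M →
    ∃ (G : Crs) (Gs : List Crs), Oc G Gs ∧ (∀ Y ∈ G :: Gs, ∀ v ∈ sq Y, v ∉ fn (LF m m')) ∧
      ∀ v : ℤ × ℤ, v ∉ fn (LF m m') → -M ≤ v.1 → v.1 < M → -M ≤ v.2 → v.2 < M →
        ∃ Y ∈ G :: Gs, v ∈ sq Y := by
  intro M hM
  refine ⟨⟨true, -(3 * m'), M, 3 * m, m'⟩, [⟨true, 3 * m, M, -M, m'⟩, ⟨true, -M, M, -M, m⟩,
    ⟨true, 3 * m', M, -M, M⟩, ⟨true, -M, M, 3 * m', M⟩, ⟨true, -M, -(5 * m'), -M, M⟩], ?_, ?_, ?_⟩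
  · simp only [Oc, Ov]
    omega
  · intro Y hY v hv hv'
    rw [mem_LF] at hv'
    simp only [List.mem_cons, List.not_mem_nil, or_false] at hY
    rcases hY with rfl | rfl | rfl | rfl | rfl | rfl <;> simp only [sq, Set.mem_ofPred_eq] at hv <;>
      omega
  · intro v hv m1 m2 m3 m4
    rw [mem_LF] at hv
    simp only [List.mem_cons, List.not_mem_nil, or_false, exists_eq_or_imp, exists_eq_left, sq,
      Set.mem_ofPred_eq]
    by_cases k1 : v.2 < m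
    · right; right; left; omega
    by_cases k2 : 3 * m' ≤ v.2
    · right; right; right; right; left; omega
    by_cases k3 : v.1 < -(5 * m')
    · right; right; right; right; right; omega
    by_cases k4 : 3 * m' ≤ v.1
    · right; right; right; left; omega
    by_cases k5 : v.2 < 3 * m
    · right; left; omega
    · left; omega

theorem cov_LT {m m' : ℤ} (h0 : 0 < m) (h : 5 * m ≤ m') : ∀ M, 6 * m' ≤ M →
    ∃ (G : Crs) (Gs : List Crs), Oc G Gs ∧ (∀ Y ∈ G :: Gs, ∀ v ∈ sq Y, v ∉ fn (LT m m')) ∧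
      ∀ v : ℤ × ℤ, v ∉ fn (LT m m') → -M ≤ v.1 → v.1 < M → -M ≤ v.2 → v.2 < M →
        ∃ Y ∈ G :: Gs, v ∈ sq Y := by
  intro M hM
  refine ⟨⟨true, -(3 * m), 3 * m', -m, m⟩, [⟨true, 3 * m, 3 * m', -m, m'⟩,
    ⟨true, -M, 3 * m', 3 * m, m'⟩, ⟨true, -M, -(5 * m), -M, m'⟩, ⟨true, -M, -(3 * m'), -M, M⟩,
    ⟨true, -M, M, -M, -(3 * m)⟩, ⟨true, 5 * m', M, -M, M⟩, ⟨true, -M, M, 3 * m', M⟩], ?_, ?_, ?_⟩
  · simp only [Oc, Ov]
    omega
  · intro Y hY v hv hv'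
    rw [mem_LT] at hv'
    simp only [List.mem_cons, List.not_mem_nil, or_false] at hY
    rcases hY with rfl | rfl | rfl | rfl | rfl | rfl | rfl | rfl <;>
      simp only [sq, Set.mem_ofPred_eq] at hv <;> omega
  · intro v hv m1 m2 m3 m4
    rw [mem_LT] at hv
    simp only [List.mem_cons, List.not_mem_nil, or_false, exists_eq_or_imp, exists_eq_left, sq,
      Set.mem_ofPred_eq]
    by_cases k1 : v.2 < -(3 * m)
    · right; right; right; right; right; left; omega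
    by_cases k2 : 3 * m' ≤ v.2
    · right; right; right; right; right; right; right; omega
    by_cases k3 : 5 * m' ≤ v.1
    · right; right; right; right; right; right; left; omega
    by_cases k4 : v.1 < -(3 * m')
    · right; right; right; right; left; omega
    by_cases k5 : v.1 < -(5 * m)
    · right; right; right; left; omega
    by_cases k6 : 3 * m ≤ v.2
    · right; right; left; omega
    by_cases k7 : m ≤ v.2
    · right; left; omega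
    · left; omega

/-- The two tubes in a frame. -/
noncomputable def Tb (b1 b2 : Bool) (x : ℤ × ℤ) (m m' : ℤ) (i : Bool) : Finset (ℤ × ℤ) :=
  fn ((if i then LT m m' else LF m m').map (fr b1 b2 x))

theorem mem_Tb {b1 b2 : Bool} {x v : ℤ × ℤ} {m m' : ℤ} {i : Bool} : v ∈ Tb b1 b2 x m m' i ↔
    gs b1 b2 x v ∈ fn (if i then LT m m' else LF m m') := mem_fn_fr

/-- The window between the levels `m` and `3 m`. -/
def Wi (m : ℤ) : Crs := ⟨true, -(3 * m), 3 * m, m, 3 * m⟩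

theorem Tb_hZ {m m' : ℤ} (h0 : 0 < m) (h : 5 * m ≤ m') (b1 b2 : Bool) (x : ℤ × ℤ) (c i : Bool) :
    ∀ s ∈ Bs c (Tb b1 b2 x m m' i), ∀ t ∈ Bs c (Tb b1 b2 x m m' i),
      Pw (↑(Tb b1 b2 x m m' i) : Set (ℤ × ℤ))ᶜ s t := by
  cases i
  · exact hz_of (cov_LF h0 h) b1 b2 x c
  · exact hz_of (cov_LT h0 h) b1 b2 x c

theorem Tb_ring {m m' n N : ℤ} (h0 : 0 < m) (h : 5 * m ≤ m') (hn : n ≤ m) (hN : 5 * m' ≤ N)
    (b1 b2 : Bool) (x : ℤ × ℤ) (i : Bool) : ∀ v ∈ Tb b1 b2 x m m' i, v ∈ Bq x N ∧ v ∉ Bq x n := by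
  intro v hv
  rw [mem_Bq_fr (b1 := b1) (b2 := b2), mem_Bq_fr (b1 := b1) (b2 := b2)]
  rw [mem_Tb] at hv
  cases i
  · rw [if_neg (by simp), mem_LF] at hv
    omega
  · rw [if_pos rfl, mem_LT] at hv
    omega

/-- The ends of the tubes at the window `m`. -/
theorem Tb_hA {m m' : ℤ} (h0 : 0 < m) (h : 5 * m ≤ m') (b1 b2 : Bool) (x : ℤ × ℤ) (c i : Bool) :
    Sd (pr c) (fr b1 b2 x (Wi m)) true ⊆ Bs c (Tb b1 b2 x m m' i) := by
  intro z hz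
  rw [Wi, mem_sd_fr] at hz
  obtain ⟨z0, z1, z2, z3, z4, z5⟩ := hz
  refine ⟨z0, gi b1 b2 x (3 * m, (gz b1 b2 x z).2), ?_, ?_⟩
  · rw [mem_Tb, gs_gi]
    cases i
    · rw [if_neg (by simp), mem_LF]
      simp only
      omega
    · rw [if_pos rfl, mem_LT]
      simp only
      omega
  · rw [cor_fr (b1 := b1) (b2 := b2) (x := x), gs_gi]
    rw [if_pos rfl] at z5
    exact ⟨Or.inl z5, Or.inl rfl⟩

/-- The ends of the tubes at the window `m'`. -/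
theorem Tb_hB {m m' : ℤ} (_h0 : 0 < m) (h : 5 * m ≤ m') (b1 b2 : Bool) (x : ℤ × ℤ) (c i : Bool) :
    Sd (pr c) (fr b1 b2 x (Wi m')) (!i) ⊆ Bs c (Tb b1 b2 x m m' i) := by
  intro z hz
  rw [Wi, mem_sd_fr] at hz
  obtain ⟨z0, z1, z2, z3, z4, z5⟩ := hz
  cases i
  · refine ⟨z0, gi b1 b2 x (3 * m', (gz b1 b2 x z).2), ?_, ?_⟩
    · rw [mem_Tb, gs_gi, if_neg (by simp), mem_LF]
      simp only
      omega
    · rw [cor_fr (b1 := b1) (b2 := b2) (x := x), gs_gi]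
      rw [Bool.not_false, if_pos rfl] at z5
      exact ⟨Or.inl z5, Or.inl rfl⟩
  · refine ⟨z0, gi b1 b2 x (-(3 * m') - 1, (gz b1 b2 x z).2), ?_, ?_⟩
    · rw [mem_Tb, gs_gi, if_pos rfl, mem_LT]
      simp only
      omega
    · rw [cor_fr (b1 := b1) (b2 := b2) (x := x), gs_gi]
      rw [Bool.not_true, if_neg (by simp)] at z5
      exact ⟨Or.inr (by simp only; omega), Or.inl rfl⟩

theorem sz_LF {m m' : ℤ} {κ : ℕ} (h0 : 0 < m) (h : 5 * m ≤ m') (hκ : m' ≤ κ * m) :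
    ∀ Y ∈ LF m m', Sz m (8 * κ + 8) Y := by
  intro Y hY
  have h1 : ((8 * κ + 8 : ℕ) : ℤ) * m = 8 * (κ * m) + 8 * m := by push_cast; ring
  simp only [LF, List.mem_cons, List.not_mem_nil, or_false] at hY
  rcases hY with rfl | rfl | rfl <;>
    simp only [Sz, if_true, if_false, Bool.false_eq_true, h1] <;>
    refine ⟨by omega, by omega, by omega, by omega⟩

theorem sz_LT {m m' : ℤ} {κ : ℕ} (h0 : 0 < m) (h : 5 * m ≤ m') (hκ : m' ≤ κ * m) :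
    ∀ Y ∈ LT m m', Sz m (8 * κ + 8) Y := by
  intro Y hY
  have h1 : ((8 * κ + 8 : ℕ) : ℤ) * m = 8 * (κ * m) + 8 * m := by push_cast; ring
  simp only [LT, List.mem_cons, List.not_mem_nil, or_false] at hY
  rcases hY with rfl | rfl | rfl | rfl | rfl <;>
    simp only [Sz, if_true, if_false, Bool.false_eq_true, h1] <;>
    refine ⟨by omega, by omega, by omega, by omega⟩

/-- **The two tubes are crossed with a probability bounded below**, in every frame. -/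
theorem Tb_low {Q : ℝ} (K : Kit Q) (κ : ℕ) : ∃ (a : ℝ) (s0 : ℤ), 0 < a ∧ a ≤ 1 ∧ 1 ≤ s0 ∧
    ∀ (c b1 b2 : Bool) (x : ℤ × ℤ) (m m' : ℤ), s0 ≤ m → 5 * m ≤ m' → m' ≤ κ * m → ∀ i : Bool,
      a ≤ Pr Q (Tb b1 b2 x m m' i) (etac c) (CC c (Tb b1 b2 x m m' i)
        (Sd (pr c) (fr b1 b2 x (Wi m)) true) (Sd (pr c) (fr b1 b2 x (Wi m')) (!i))) := by
  obtain ⟨a, s0, h1, h2, h3, h4⟩ := low_fr K 5 (8 * κ + 8)
  refine ⟨a, s0, h1, h2, h3, fun c b1 b2 x m m' hm h hκ i => ?_⟩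
  cases i
  · refine (h4 c b1 b2 x m ⟨true, -(5 * m'), 3 * m, m, 3 * m⟩
      [⟨false, -(5 * m'), -(3 * m'), m, 3 * m'⟩, ⟨true, -(5 * m'), 3 * m', m', 3 * m'⟩] (etac c)
      true true (good_etac c) hm (by simp) ?_ (sz_LF (by omega) h hκ)).trans
      (Pr_mono K.pos ?_)
    · simp [Ch, Mt]
      omega
    · rintro ω ⟨u, hu, v, hv, hp⟩
      refine ⟨u, ?_, v, ?_, hp⟩
      · rw [Wi, mem_sd_fr]
        rw [mem_sd_fr] at hu
        refine ⟨hu.1, ?_, hu.2.2.1, hu.2.2.2.1, hu.2.2.2.2.1, hu.2.2.2.2.2⟩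
        have := hu.2.2.2.2.2
        rw [if_pos rfl] at this
        omega
      · rw [Wi, Bool.not_false, mem_sd_fr]
        simp only [lst] at hv
        rw [mem_sd_fr] at hv
        refine ⟨hv.1, ?_, hv.2.2.1, hv.2.2.2.1, hv.2.2.2.2.1, hv.2.2.2.2.2⟩
        have := hv.2.2.2.2.2
        rw [if_pos rfl] at this
        omega
  · refine (h4 c b1 b2 x m ⟨true, -(5 * m), 3 * m, m, 3 * m⟩
      [⟨false, -(5 * m), -(3 * m), -(3 * m), 3 * m⟩, ⟨true, -(5 * m), 5 * m', -(3 * m), -m⟩,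
        ⟨false, 3 * m', 5 * m', -(3 * m), 3 * m'⟩, ⟨true, -(3 * m'), 5 * m', m', 3 * m'⟩] (etac c)
      true false (good_etac c) hm (by simp) ?_ (sz_LT (by omega) h hκ)).trans
      (Pr_mono K.pos ?_)
    · simp [Ch, Mt]
      omega
    · rintro ω ⟨u, hu, v, hv, hp⟩
      refine ⟨u, ?_, v, ?_, hp⟩
      · rw [Wi, mem_sd_fr]
        rw [mem_sd_fr] at hu
        refine ⟨hu.1, ?_, hu.2.2.1, hu.2.2.2.1, hu.2.2.2.2.1, hu.2.2.2.2.2⟩
        have := hu.2.2.2.2.2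
        rw [if_pos rfl] at this
        omega
      · rw [Wi, Bool.not_true, mem_sd_fr]
        simp only [lst] at hv
        rw [mem_sd_fr] at hv
        have := hv.2.2.2.2.2
        rw [if_neg (by simp)] at this
        refine ⟨hv.1, hv.2.1, ?_, hv.2.2.2.1, hv.2.2.2.2.1, ?_⟩
        · omega
        · rw [if_neg (by simp)]
          exact this

end Vale.Agent.P167.N.BAR
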