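import Vale.Agent.P167.N.BAR.Fr

/-!
# P167, `0 < q < 1`: the two tubes run on different sides of the hole

`wind_fr`: the field `wind` of `TubePair` for the two tubes in the four frames. Base frame: the chains
from the centre to the outside off the two tubes; their sum is a cycle with odd winding number on the
first window and even winding number on the second one. Transport: `wn F z + wn F z'` for a cycle `F` is
invariant under the symmetries of the lattice (`wn_gz`).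
-/

set_option autoImplicit false

namespace Vale.Agent.P167.N.BAR

open Finset Relation Vale.Agent.P167 Vale.Agent.P167.FK Vale.Agent.P167.FKA Vale.Agent.P167.H192.TA
  Vale.Agent.P167.H632 Vale.Agent.P167.H262 Vale.Agent.P167.H192.Q Vale.Agent.P167.N.H192.Q
open Vale.Agent.P167.H906 (Chn ray tot deg two_zero ray_add ray_eq_zero ray_eq_tot frame_conn
  rect_conn two_rect deg_add)
open Vale.Agent.P145.FB (PStep PConn)

/-! ### Transport to the four frames -/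

theorem gs_inj (b1 b2 : Bool) (x : ℤ × ℤ) : Function.Injective (gs b1 b2 x) := by
  intro v w h
  obtain ⟨v1, v2⟩ := v
  obtain ⟨w1, w2⟩ := w
  cases b1 <;> cases b2 <;> simp only [gs, Bool.false_eq_true, if_false, if_true,
    Prod.mk.injEq] at h ⊢ <;> omega

/-- The chain in the frame. -/
noncomputable def cm (b1 b2 : Bool) (x : ℤ × ℤ) (f : Chn) : Chn :=
  f.comapDomain (gs b1 b2 x) (gs_inj b1 b2 x).injOn

theorem cm_apply (b1 b2 : Bool) (x : ℤ × ℤ) (f : Chn) (v : ℤ × ℤ) :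
    cm b1 b2 x f v = f (gs b1 b2 x v) := Finsupp.comapDomain_apply _ _ _ _

theorem cm_supp {b1 b2 : Bool} {x : ℤ × ℤ} {f : Chn} {v : ℤ × ℤ} (h : v ∈ (cm b1 b2 x f).support) :
    gs b1 b2 x v ∈ f.support := by
  rw [Finsupp.mem_support_iff] at h ⊢
  rwa [cm_apply] at h

theorem cm_add (b1 b2 : Bool) (x : ℤ × ℤ) (f g : Chn) :
    cm b1 b2 x (f + g) = cm b1 b2 x f + cm b1 b2 x g := by
  ext v
  simp only [cm_apply, Finsupp.add_apply]

theorem deg_cm (b1 b2 : Bool) (x : ℤ × ℤ) (f : Chn) (z : ℤ × ℤ) :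
    deg (cm b1 b2 x f) z = deg f (gz b1 b2 x z) := by
  simp only [deg, cm_apply]
  obtain ⟨z1, z2⟩ := z
  obtain ⟨x1, x2⟩ := x
  cases b1 <;> cases b2 <;> simp only [gs, gz, Bool.false_eq_true, if_false, if_true]
  · have e1 : z1 - 1 - x1 = z1 - x1 - 1 := by ring
    have e2 : z2 - 1 - x2 = z2 - x2 - 1 := by ring
    rw [e1, e2]
  · have e1 : z1 - 1 - x1 = z1 - x1 - 1 := by ring
    have e2 : x2 - 1 - z2 = x2 - z2 - 1 := by ring
    have e3 : x2 - 1 - (z2 - 1) = x2 - z2 := by ring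
    rw [e1, e2, e3]
    ring
  · have e1 : z1 - 1 - x1 = z1 - x1 - 1 := by ring
    have e2 : z2 - 1 - x2 = z2 - x2 - 1 := by ring
    rw [e1, e2]
    ring
  · have e1 : x1 - 1 - z1 = x1 - z1 - 1 := by ring
    have e2 : z2 - 1 - x2 = z2 - x2 - 1 := by ring
    have e3 : x1 - 1 - (z1 - 1) = x1 - z1 := by ring
    rw [e1, e2, e3]
    ring

theorem gz_par (b1 b2 : Bool) (x z : ℤ × ℤ) :
    ((gz b1 b2 x z).1 + (gz b1 b2 x z).2) % 2 = (z.1 + z.2 + (x.1 + x.2)) % 2 := by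
  cases b1 <;> cases b2 <;> simp only [gz, Bool.false_eq_true, if_false, if_true] <;> omega

theorem gz_inj (b1 b2 : Bool) (x : ℤ × ℤ) : Function.Injective (gz b1 b2 x) := by
  intro v w h
  obtain ⟨v1, v2⟩ := v
  obtain ⟨w1, w2⟩ := w
  cases b1 <;> cases b2 <;> simp only [gz, Bool.false_eq_true, if_false, if_true,
    Prod.mk.injEq] at h ⊢ <;> omega

theorem bdy_cm {b1 b2 : Bool} {x : ℤ × ℤ} {e : ℤ} {f : Chn} {s t : ℤ × ℤ}
    (h : Bdy ((e + (x.1 + x.2)) % 2) f (gz b1 b2 x s) (gz b1 b2 x t)) :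
    Bdy e (cm b1 b2 x f) s t := by
  intro u hu
  rw [deg_cm, h _ (by rw [gz_par]; omega)]
  have e1 : gz b1 b2 x u = gz b1 b2 x s ↔ u = s := (gz_inj b1 b2 x).eq_iff
  have e2 : gz b1 b2 x u = gz b1 b2 x t ↔ u = t := (gz_inj b1 b2 x).eq_iff
  simp only [e1, e2]

theorem gz_step {b1 b2 : Bool} {x p p' : ℤ × ℤ} (h : PStep Set.univ p p') :
    PStep Set.univ (gz b1 b2 x p) (gz b1 b2 x p') ∧
      (min (gz b1 b2 x p).1 (gz b1 b2 x p').1, min (gz b1 b2 x p).2 (gz b1 b2 x p').2) =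
        gs b1 b2 x (min p.1 p'.1, min p.2 p'.2) := by
  obtain ⟨h1, h2, -⟩ := h
  obtain ⟨p1, p2⟩ := p
  obtain ⟨q1, q2⟩ := p'
  obtain ⟨x1, x2⟩ := x
  simp only at h1 h2
  refine ⟨⟨?_, ?_, trivial⟩, ?_⟩ <;> cases b1 <;> cases b2 <;>
    simp only [gs, gz, Bool.false_eq_true, if_false, if_true, Prod.mk.injEq] <;> omega

/-- The differences of the winding numbers of a cycle are invariant. -/
theorem wn_gz {b1 b2 : Bool} {x : ℤ × ℤ} {e e' : ℤ} {f : Chn} (hf : Cy e' f)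
    (hF : Cy e (cm b1 b2 x f)) (he : e = 0 ∨ e = 1) (he' : e' = 0 ∨ e' = 1) {z z' : ℤ × ℤ}
    (hz : (z.1 + z.2) % 2 ≠ e) (hz' : (z'.1 + z'.2) % 2 = (z.1 + z.2) % 2)
    (hee : e' = (e + (x.1 + x.2)) % 2) :
    wn (cm b1 b2 x f) z + wn (cm b1 b2 x f) z' =
      wn f (gz b1 b2 x z) + wn f (gz b1 b2 x z') := by
  have h : ReflTransGen (PStep (Set.univ : Set (ℤ × ℤ))) z z' := by
    refine rect_conn (a := min z.1 z'.1) (b := max z.1 z'.1 + 1) (c := min z.2 z'.2)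
      (d := max z.2 z'.2 + 1) (by omega) (by omega) (Set.subset_univ _) ?_ ?_ hz'.symm
    · exact ⟨by omega, by omega, by omega, by omega⟩
    · exact ⟨by omega, by omega, by omega, by omega⟩
  have key : wn (cm b1 b2 x f) z' + wn f (gz b1 b2 x z') =
      wn (cm b1 b2 x f) z + wn f (gz b1 b2 x z) := by
    clear hz'
    induction h with
    | refl => rfl
    | @tail p p' hp h1 ih =>
      have hpar : (p.1 + p.2) % 2 = (z.1 + z.2) % 2 := (Pw.parity hp).symm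
      obtain ⟨h2, h3⟩ := gz_step (b1 := b1) (b2 := b2) (x := x) h1
      rw [wn_step hF (by rw [hpar]; exact hz) he h1,
        wn_step hf (by rw [gz_par]; omega) he' h2, h3, cm_apply]
      calc _ = (wn (cm b1 b2 x f) p + wn f (gz b1 b2 x p)) +
          (f (gs b1 b2 x (min p.1 p'.1, min p.2 p'.2)) +
            f (gs b1 b2 x (min p.1 p'.1, min p.2 p'.2))) := by ring
        _ = _ := by rw [two_zero, add_zero, ih]
  calc _ = (wn (cm b1 b2 x f) z + wn f (gz b1 b2 x z)) + (wn (cm b1 b2 x f) z' +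
        wn f (gz b1 b2 x z')) + (wn f (gz b1 b2 x z) + wn f (gz b1 b2 x z')) := by
          calc _ = wn (cm b1 b2 x f) z + wn (cm b1 b2 x f) z' + 0 + 0 := by ring
            _ = wn (cm b1 b2 x f) z + wn (cm b1 b2 x f) z' +
                (wn f (gz b1 b2 x z) + wn f (gz b1 b2 x z)) +
                (wn f (gz b1 b2 x z') + wn f (gz b1 b2 x z')) := by rw [two_zero, two_zero]
            _ = _ := by ring
    _ = _ := by rw [key, two_zero, zero_add]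

/-! ### The base frame -/

/-- The squares of the first tube. -/
def T0 (m m' : ℤ) (v : ℤ × ℤ) : Prop := m ≤ v.2 ∧ v.2 < 5 * m' ∧ -(5 * m') ≤ v.1 ∧ v.1 < 5 * m'

/-- The squares of the second tube. -/
def T1 (m m' : ℤ) (v : ℤ × ℤ) : Prop :=
  (-(5 * m) ≤ v.1 ∧ v.1 < 3 * m ∧ m ≤ v.2 ∧ v.2 < 3 * m) ∨
    (-(5 * m) ≤ v.1 ∧ v.1 < -(3 * m) ∧ -(3 * m) ≤ v.2 ∧ v.2 < 3 * m) ∨
    (-(5 * m) ≤ v.1 ∧ v.1 < 5 * m' ∧ -(3 * m) ≤ v.2 ∧ v.2 < -m) ∨
    (3 * m' ≤ v.1 ∧ v.1 < 5 * m' ∧ -(3 * m) ≤ v.2 ∧ v.2 < 3 * m') ∨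
    (-(3 * m') ≤ v.1 ∧ v.1 < 5 * m' ∧ m' ≤ v.2 ∧ v.2 < 3 * m')

theorem chn_rect {e a b c d : ℤ} (hab : a < b) (hcd : c < d) {u v : ℤ × ℤ}
    (hu : (u.1 + u.2) % 2 = e) (hv : (v.1 + v.2) % 2 = e) (h1 : a ≤ u.1) (h2 : u.1 ≤ b)
    (h3 : c ≤ u.2) (h4 : u.2 ≤ d) (h5 : a ≤ v.1) (h6 : v.1 ≤ b) (h7 : c ≤ v.2) (h8 : v.2 ≤ d) :
    ∃ f : Chn, (∀ s ∈ f.support, a ≤ s.1 ∧ s.1 < b ∧ c ≤ s.2 ∧ s.2 < d) ∧ Bdy e f u v ∧
      ∀ j : ℤ, tot f j = (if j < u.2 then 1 else 0) + (if j < v.2 then 1 else 0) := by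
  obtain ⟨f, g1, g2, g3, -⟩ := exists_chn hu (rect_conn (F := ↑(Rsq a b c d)) hab hcd subset_rfl
    (u := u) (v := v) ⟨h1, h2, h3, h4⟩ ⟨h5, h6, h7, h8⟩ (hu.trans hv.symm))
  refine ⟨f, fun s hs => ?_, g2, g3⟩
  have := g1 s hs
  rw [Finset.mem_coe, mem_Rsq] at this
  omega

theorem chn_out {e M : ℤ} (hM : 0 < M) {u v : ℤ × ℤ} (hu : (u.1 + u.2) % 2 = e)
    (hv : (v.1 + v.2) % 2 = e) (h1 : M ≤ |u.1| ∨ M ≤ |u.2|) (h2 : M ≤ |v.1| ∨ M ≤ |v.2|) :
    ∃ f : Chn, (∀ s ∈ f.support, ¬ (-M ≤ s.1 ∧ s.1 < M ∧ -M ≤ s.2 ∧ s.2 < M)) ∧ Bdy e f u v := by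
  obtain ⟨W, w1, w2, w3, w4, w5⟩ : ∃ W : ℤ, M < W ∧ |u.1| ≤ W ∧ |u.2| ≤ W ∧ |v.1| ≤ W ∧
      |v.2| ≤ W := by
    refine ⟨M + 1 + |u.1| + |u.2| + |v.1| + |v.2|, ?_, ?_, ?_, ?_, ?_⟩ <;>
      have := abs_nonneg u.1 <;> have := abs_nonneg u.2 <;> have := abs_nonneg v.1 <;>
      have := abs_nonneg v.2 <;> omega
  have hu' : H906.Fr (-M) M (-M) M (-W) W (-W) W u := by
    rw [abs_le] at w2 w3
    refine ⟨⟨w2.1, w2.2, w3.1, w3.2⟩, ?_⟩
    rw [le_abs, le_abs] at h1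
    omega
  have hv' : H906.Fr (-M) M (-M) M (-W) W (-W) W v := by
    rw [abs_le] at w4 w5
    refine ⟨⟨w4.1, w4.2, w5.1, w5.2⟩, ?_⟩
    rw [le_abs, le_abs] at h2
    omega
  obtain ⟨f, g1, g2, -, -⟩ := exists_chn hu (frame_conn (F := {s | ¬ (-M ≤ s.1 ∧ s.1 < M ∧
      -M ≤ s.2 ∧ s.2 < M)}) (by omega) (by omega) (by omega) (by omega) (by omega) (by omega)
      (fun _ _ => Or.inl (by omega)) (fun _ _ => Or.inl (by omega))
      (fun s _ hs => by rw [mem_Rsq] at hs; exact hs) hu' hv' (hu.trans hv.symm))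
  exact ⟨f, fun s hs => g1 s hs, g2⟩

/-- **The base frame.** -/
theorem wind0 {e m m' : ℤ} (h1 : 1 ≤ m) (h2 : 3 * m + 3 ≤ m') {s t : ℤ × ℤ}
    (hs : (s.1 + s.2) % 2 = e) (ht : (t.1 + t.2) % 2 = e) (hs1 : |s.1| ≤ m) (hs2 : |s.2| ≤ m)
    (ht1 : 5 * m' ≤ |t.1| ∨ 5 * m' ≤ |t.2|) :
    ∃ f0 f1 : Chn, Bdy e f0 s t ∧ Bdy e f1 s t ∧ (∀ v ∈ f0.support, ¬ T0 m m' v) ∧
      (∀ v ∈ f1.support, ¬ T1 m m' v) ∧
      ∀ z1 z2 : ℤ × ℤ, -(3 * m) ≤ z1.1 → z1.1 ≤ 3 * m → m ≤ z1.2 → z1.2 ≤ 3 * m →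
        -(3 * m') ≤ z2.1 → z2.1 ≤ 3 * m' → m' ≤ z2.2 → z2.2 ≤ 3 * m' →
        wn (f0 + f1) z1 + wn (f0 + f1) z2 = 1 := by
  rw [abs_le] at hs1 hs2
  -- the points
  obtain ⟨p, p1, p2, p3, p4⟩ : ∃ p : ℤ × ℤ, (p.1 + p.2) % 2 = e ∧ 3 * m ≤ p.1 ∧
      p.1 ≤ 3 * m + 1 ∧ p.2 = 0 := by
    rcases Int.emod_two_eq_zero_or_one (3 * m + e) with h | h
    · exact ⟨(3 * m, 0), by simp only; omega, by simp, by simp, rfl⟩
    · exact ⟨(3 * m + 1, 0), by simp only; omega, by simp, by simp, rfl⟩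
  obtain ⟨w, w1, w2, w3, w4, w5⟩ : ∃ w : ℤ × ℤ, (w.1 + w.2) % 2 = e ∧ 3 * m ≤ w.1 ∧
      w.1 ≤ 3 * m + 1 ∧ 3 * m + 1 ≤ w.2 ∧ w.2 ≤ 3 * m + 2 := by
    rcases Int.emod_two_eq_zero_or_one e with h | h
    · exact ⟨(3 * m + 1, 3 * m + 1), by simp only; omega, by simp, by simp, by simp, by simp⟩
    · exact ⟨(3 * m, 3 * m + 1), by simp only; omega, by simp, by simp, by simp, by simp⟩
  obtain ⟨y, y1, y2, y3, y4⟩ : ∃ y : ℤ × ℤ, (y.1 + y.2) % 2 = e ∧ -(5 * m') - 1 ≤ y.1 ∧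
      y.1 ≤ -(5 * m') ∧ y.2 = 0 := by
    rcases Int.emod_two_eq_zero_or_one (5 * m' + e) with h | h
    · exact ⟨(-(5 * m'), 0), by simp only; omega, by simp, by simp, rfl⟩
    · exact ⟨(-(5 * m') - 1, 0), by simp only; omega, by simp, by simp, rfl⟩
  obtain ⟨w', u1, u2, u3, u4, u5⟩ : ∃ y : ℤ × ℤ, (y.1 + y.2) % 2 = e ∧ -(5 * m') - 1 ≤ y.1 ∧
      y.1 ≤ -(5 * m') ∧ 3 * m + 1 ≤ y.2 ∧ y.2 ≤ 3 * m + 2 := by
    rcases Int.emod_two_eq_zero_or_one (5 * m' + 3 * m + 1 + e) with h | h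
    · exact ⟨(-(5 * m'), 3 * m + 1), by simp only; omega, by simp, by simp, by simp, by simp⟩
    · exact ⟨(-(5 * m') - 1, 3 * m + 1), by simp only; omega, by simp, by simp, by simp, by simp⟩
  -- the chains
  obtain ⟨A, a1, a2, -⟩ := chn_rect (a := -(3 * m)) (b := 3 * m') (c := -m) (d := m) (by omega)
    (by omega) hs p1 (by omega) (by omega) (by omega) (by omega) (by omega) (by omega) (by omega)
    (by omega)
  obtain ⟨B, b1, b2⟩ := chn_out (M := 5 * m') (by omega) y1 ht (Or.inl (by rw [le_abs]; omega)) ht1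
  obtain ⟨C, c1, c2, -⟩ := chn_rect (a := -(5 * m') - 1) (b := 3 * m + 1) (c := 0) (d := 1)
    (by omega) (by omega) p1 y1 (by omega) (by omega) (by omega) (by omega) (by omega) (by omega)
    (by omega) (by omega)
  obtain ⟨D, d1, d2, d3⟩ := chn_rect (a := 3 * m) (b := 3 * m + 1) (c := 0) (d := 3 * m + 2)
    (by omega) (by omega) p1 w1 (by omega) (by omega) (by omega) (by omega) (by omega) (by omega)
    (by omega) (by omega)
  obtain ⟨E, e1, e2, -⟩ := chn_rect (a := -(5 * m') - 1) (b := 3 * m + 1) (c := 3 * m + 1)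
    (d := 3 * m + 2) (by omega) (by omega) w1 u1 (by omega) (by omega) (by omega) (by omega)
    (by omega) (by omega) (by omega) (by omega)
  obtain ⟨F, f1, f2, -⟩ := chn_rect (a := -(5 * m') - 1) (b := -(5 * m')) (c := 0)
    (d := 3 * m + 2) (by omega) (by omega) u1 y1 (by omega) (by omega) (by omega) (by omega)
    (by omega) (by omega) (by omega) (by omega)
  refine ⟨A + C + B, A + (D + (E + F)) + B, (a2.add c2).add b2,
    (a2.add (d2.add (e2.add f2))).add b2, ?_, ?_, ?_⟩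
  · intro v hv
    rcases Finset.mem_union.1 (Finsupp.support_add hv) with hv | hv
    · rcases Finset.mem_union.1 (Finsupp.support_add hv) with hv | hv
      · have := a1 v hv
        unfold T0
        omega
      · have := c1 v hv
        unfold T0
        omega
    · have := b1 v hv
      unfold T0
      omega
  · intro v hv
    rcases Finset.mem_union.1 (Finsupp.support_add hv) with hv | hv
    · rcases Finset.mem_union.1 (Finsupp.support_add hv) with hv | hv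
      · have := a1 v hv
        unfold T1
        omega
      · rcases Finset.mem_union.1 (Finsupp.support_add hv) with hv | hv
        · have := d1 v hv
          unfold T1
          omega
        · rcases Finset.mem_union.1 (Finsupp.support_add hv) with hv | hv
          · have := e1 v hv
            unfold T1
            omega
          · have := f1 v hv
            unfold T1
            omega
    · have := b1 v hv
      unfold T1
      omega
  · intro z1 z2 k1 k2 k3 k4 l1 l2 l3 l4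
    have red : ∀ z, wn (A + C + B + (A + (D + (E + F)) + B)) z = wn C z + (wn D z + (wn E z +
        wn F z)) := by
      intro z
      simp only [wn_add]
      calc _ = wn C z + (wn D z + (wn E z + wn F z)) + (wn A z + wn A z) + (wn B z + wn B z) := by
            ring
        _ = _ := by rw [two_zero, two_zero, add_zero, add_zero]
    have C1 : wn C z1 = 0 := ray_eq_zero fun s hs h => by have := c1 s hs; omega
    have C2 : wn C z2 = 0 := ray_eq_zero fun s hs h => by have := c1 s hs; omega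
    have D2 : wn D z2 = 0 := ray_eq_zero fun s hs h => by have := d1 s hs; omega
    have E1 : wn E z1 = 0 := ray_eq_zero fun s hs h => by have := e1 s hs; omega
    have E2 : wn E z2 = 0 := ray_eq_zero fun s hs h => by have := e1 s hs; omega
    have F1 : wn F z1 = 0 := ray_eq_zero fun s hs h => by have := f1 s hs; omega
    have F2 : wn F z2 = 0 := ray_eq_zero fun s hs h => by have := f1 s hs; omega
    have D1 : wn D z1 = 1 := by
      have : wn D z1 = tot D z1.2 := ray_eq_tot fun s hs h => by have := d1 s hs; omega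
      rw [this, d3, if_neg (by omega), if_pos (by omega), zero_add]
    rw [red, red, C1, C2, D1, D2, E1, E2, F1, F2]
    simp

/-! ### The four frames -/

theorem gz_nm_le {b1 b2 : Bool} {x s : ℤ × ℤ} {n : ℤ} (h : nm (s - x) ≤ n) :
    |(gz b1 b2 x s).1| ≤ n ∧ |(gz b1 b2 x s).2| ≤ n := by
  have h' : |s.1 - x.1| ≤ n ∧ |s.2 - x.2| ≤ n := by
    simpa [nm] using h
  rw [abs_le, abs_le] at h'
  cases b1 <;> cases b2 <;> simp only [gz, Bool.false_eq_true, if_false, if_true, abs_le] <;> omega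

theorem gz_le_nm {b1 b2 : Bool} {x s : ℤ × ℤ} {n : ℤ} (h : n ≤ nm (s - x)) :
    n ≤ |(gz b1 b2 x s).1| ∨ n ≤ |(gz b1 b2 x s).2| := by
  have h' : n ≤ |s.1 - x.1| ∨ n ≤ |s.2 - x.2| := by
    simpa [nm] using h
  rw [le_abs, le_abs] at h'
  cases b1 <;> cases b2 <;> simp only [gz, Bool.false_eq_true, if_false, if_true, le_abs] <;> omega

/-- **The field `wind` for the two tubes in the four frames.** -/
theorem wind_fr {c b1 b2 : Bool} {x : ℤ × ℤ} {n m m' M : ℤ} (hn : n ≤ m) (h1 : 1 ≤ m)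
    (h2 : 3 * m + 3 ≤ m') (hM : 5 * m' ≤ M) {T : Bool → Finset (ℤ × ℤ)}
    (hT0 : ∀ v ∈ T false, T0 m m' (gs b1 b2 x v)) (hT1 : ∀ v ∈ T true, T1 m m' (gs b1 b2 x v))
    {V1 V2 : Set (ℤ × ℤ)}
    (hV1 : ∀ z ∈ V1, (z.1 + z.2) % 2 = pr c ∧ -(3 * m) ≤ (gz b1 b2 x z).1 ∧
      (gz b1 b2 x z).1 ≤ 3 * m ∧ m ≤ (gz b1 b2 x z).2 ∧ (gz b1 b2 x z).2 ≤ 3 * m)
    (hV2 : ∀ z ∈ V2, (z.1 + z.2) % 2 = pr c ∧ -(3 * m') ≤ (gz b1 b2 x z).1 ∧
      (gz b1 b2 x z).1 ≤ 3 * m' ∧ m' ≤ (gz b1 b2 x z).2 ∧ (gz b1 b2 x z).2 ≤ 3 * m') :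
    ∀ s t : ℤ × ℤ, (s.1 + s.2) % 2 = pr (!c) → (t.1 + t.2) % 2 = pr (!c) →
      nm (s - x) ≤ n → M ≤ nm (t - x) → ∃ ρ : Bool → Chn,
        (∀ i, Bdy (pr (!c)) (ρ i) s t ∧ ∀ v ∈ (ρ i).support, v ∉ T i) ∧
          ∀ z1 ∈ V1, ∀ z2 ∈ V2, wn (ρ false + ρ true) z1 + wn (ρ false + ρ true) z2 = 1 := by
  intro s t hs ht hs1 ht1
  have hpc : pr (!c) = 0 ∨ pr (!c) = 1 := by cases c <;> simp [pr]
  have hpn : pr c ≠ pr (!c) := by cases c <;> simp [pr]
  set e' : ℤ := (pr (!c) + (x.1 + x.2)) % 2 with he'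
  have he2 : e' = 0 ∨ e' = 1 := Int.emod_two_eq_zero_or_one _
  have hs2 := gz_nm_le (b1 := b1) (b2 := b2) hs1
  have ht2 := gz_le_nm (b1 := b1) (b2 := b2) (hM.trans ht1)
  obtain ⟨f0, f1, k0, k1, k2, k3, k4⟩ := wind0 (e := e') (s := gz b1 b2 x s) (t := gz b1 b2 x t)
    h1 h2 (by rw [gz_par, he']; omega) (by rw [gz_par, he']; omega) (hs2.1.trans hn)
    (hs2.2.trans hn) ht2
  have B0 : Bdy (pr (!c)) (cm b1 b2 x f0) s t := bdy_cm k0
  have B1 : Bdy (pr (!c)) (cm b1 b2 x f1) s t := bdy_cm k1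
  refine ⟨fun i => cm b1 b2 x (if i = true then f1 else f0), fun i => ?_, ?_⟩
  · cases i
    · exact ⟨by simpa using B0, fun v hv hT => k2 _ (by simpa using cm_supp hv) (hT0 v hT)⟩
    · exact ⟨by simpa using B1, fun v hv hT => k3 _ (by simpa using cm_supp hv) (hT1 v hT)⟩
  · intro z1 hz1 z2 hz2
    obtain ⟨m1, m2, m3, m4, m5⟩ := hV1 z1 hz1
    obtain ⟨n1, n2, n3, n4, n5⟩ := hV2 z2 hz2
    simp only [Bool.false_eq_true, if_false, if_true]
    rw [← cm_add, wn_gz (e := pr (!c)) (e' := e') (k0.cy2 k1) (by rw [cm_add]; exact B0.cy2 B1)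
      hpc he2 (by rw [m1]; exact hpn) (n1.trans m1.symm) he']
    exact k4 _ _ m2 m3 m4 m5 n2 n3 n4 n5

end Vale.Agent.P167.N.BAR
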