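import Vale.Agent.P167.N.BAR.Win
import Vale.Agent.P167.N.BAR.Wnd

/-!
# P167, `0 < q < 1`: every wall which crosses a ring gives tubes

`tubes_all`: five concentric rings; two of them are crossed by the wall on the same side.
-/

set_option autoImplicit false

namespace Vale.Agent.P167.N.BAR

open Finset Relation Vale.Agent.P167 Vale.Agent.P167.FK Vale.Agent.P167.FKA Vale.Agent.P167.H192.TA
  Vale.Agent.P167.H632 Vale.Agent.P167.H262 Vale.Agent.P167.H192.Q Vale.Agent.P167.N.H192.Q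
  Vale.Agent.P167.H704 Vale.Agent.P167.H871 Vale.Agent.P167.H906
open Vale.Agent.P145.FB (PStep PConn)
open Vale.Agent.P153.Topo (Rect mem_rect)

section

variable {m m' : ℤ}

theorem wi_sub (_h0 : 0 < m) (h : 5 * m ≤ m') {b1 b2 : Bool} {x v : ℤ × ℤ} (i : Bool)
    (hv : gs b1 b2 x v ∈ sq (Wi m)) : v ∈ Tb b1 b2 x m m' i := by
  obtain ⟨k1, k2, k3, k4⟩ := hv
  simp only [Wi] at k1 k2 k3 k4
  rw [mem_Tb]
  cases i
  · rw [if_neg (by simp), mem_LF]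
    omega
  · rw [if_pos rfl, mem_LT]
    omega

theorem wi_sub' (_h0 : 0 < m) (_h : 5 * m ≤ m') {b1 b2 : Bool} {x v : ℤ × ℤ} (i : Bool)
    (hv : gs b1 b2 x v ∈ sq (Wi m')) : v ∈ Tb b1 b2 x m m' i := by
  obtain ⟨k1, k2, k3, k4⟩ := hv
  simp only [Wi] at k1 k2 k3 k4
  rw [mem_Tb]
  cases i
  · rw [if_neg (by simp), mem_LF]
    omega
  · rw [if_pos rfl, mem_LT]
    omega

theorem tb_near (h0 : 0 < m) (h : 5 * m ≤ m') {b1 b2 : Bool} {x v : ℤ × ℤ} {i : Bool}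
    (hv : v ∈ Tb b1 b2 x m m' i) (w : ℤ × ℤ) (h1 : -(3 * m) ≤ w.1) (h2 : w.1 ≤ 3 * m)
    (h3 : m ≤ w.2) (h4 : w.2 ≤ 3 * m) (h5 : w.1 ≠ if true then -(3 * m) else 3 * m)
    (hc : Cor (gs b1 b2 x v) w) : gs b1 b2 x v ∈ sq (Wi m) := by
  obtain ⟨c1, c2⟩ := hc
  rw [mem_Tb] at hv
  rw [if_pos rfl] at h5
  cases i
  · rw [if_neg (by simp), mem_LF] at hv
    refine ⟨?_, ?_, ?_, ?_⟩ <;> simp only [Wi] <;> omega
  · rw [if_pos rfl, mem_LT] at hv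
    refine ⟨?_, ?_, ?_, ?_⟩ <;> simp only [Wi] <;> omega

theorem tb_near' (_h0 : 0 < m) (h : 5 * m ≤ m') {b1 b2 : Bool} {x v : ℤ × ℤ} {i : Bool}
    (hv : v ∈ Tb b1 b2 x m m' i) (w : ℤ × ℤ) (h1 : -(3 * m') ≤ w.1) (h2 : w.1 ≤ 3 * m')
    (h3 : m' ≤ w.2) (h4 : w.2 ≤ 3 * m') (h5 : w.1 ≠ if (!i) then -(3 * m') else 3 * m')
    (hc : Cor (gs b1 b2 x v) w) : gs b1 b2 x v ∈ sq (Wi m') := by
  obtain ⟨c1, c2⟩ := hc
  rw [mem_Tb] at hv
  cases i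
  · rw [if_neg (by simp), mem_LF] at hv
    rw [Bool.not_false, if_pos rfl] at h5
    refine ⟨?_, ?_, ?_, ?_⟩ <;> simp only [Wi] <;> omega
  · rw [if_pos rfl, mem_LT] at hv
    rw [Bool.not_true, if_neg (by simp)] at h5
    refine ⟨?_, ?_, ?_, ?_⟩ <;> simp only [Wi] <;> omega

end

/-- Two tubes from two windows on the same side of two rings. -/
theorem tube_pair {Q a : ℝ} {c b1 b2 : Bool} {x : ℤ × ℤ} {n N m m' : ℤ} {U : Finset (ℤ × ℤ)}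
    (hn : n ≤ m) (hm : 1 < m) (h : 5 * m ≤ m') (hN : 5 * m' ≤ N)
    (hlow : ∀ i : Bool, a ≤ Pr Q (Tb b1 b2 x m m' i) (etac c) (CC c (Tb b1 b2 x m m' i)
      (Sd (pr c) (fr b1 b2 x (Wi m)) true) (Sd (pr c) (fr b1 b2 x (Wi m')) (!i))))
    {y y' w w' : ℤ × ℤ} (hy : y.2 = m) (hy' : y'.2 = 3 * m)
    (hp : ((zi b1 b2 x y).1 + (zi b1 b2 x y).2) % 2 = pr c)
    (hK : PConn {w | gi b1 b2 x w ∉ U} (Rect (-(3 * m)) (3 * m) m (3 * m)) y y')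
    (hw : w.2 = m') (hw' : w'.2 = 3 * m')
    (hq : ((zi b1 b2 x w).1 + (zi b1 b2 x w).2) % 2 = pr c)
    (hJ : PConn {w | gi b1 b2 x w ∉ U} (Rect (-(3 * m')) (3 * m') m' (3 * m')) w w') :
    TubePair Q a c x n N U (Vw b1 b2 x U m y) (Vw b1 b2 x U m' w) (Tb b1 b2 x m m')
      (fun _ => Sd (pr c) (fr b1 b2 x (Wi m)) true) (fun i => Sd (pr c) (fr b1 b2 x (Wi m')) (!i))
      (fun _ => Rw (pr c) b1 b2 x U m y true) (fun i => Rw (pr c) b1 b2 x U m' w (!i)) where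
  ring i := Tb_ring (by omega) h hn hN b1 b2 x i
  hZ i := Tb_hZ (by omega) h b1 b2 x c i
  hA i := Tb_hA (by omega) h b1 b2 x c i
  hB i := Tb_hB (by omega) h b1 b2 x c i
  low := hlow
  ne1 := ⟨zi b1 b2 x y, by
    show PConn _ _ _ _
    rw [gz_zi]
    exact PConn.refl hK.left_mem⟩
  ne2 := ⟨zi b1 b2 x w, by
    show PConn _ _ _ _
    rw [gz_zi]
    exact PConn.refl hJ.left_mem⟩
  par1 _ hz := Vw.par hp hz
  par2 _ hz := Vw.par hq hz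
  con1 i _ hz _ hz' := Vw.con hz hz' fun _ hv => wi_sub (by omega) h i hv
  con2 i _ hz _ hz' := Vw.con hz hz' fun _ hv => wi_sub' (by omega) h i hv
  wall1 i _ hz := Vw.wall hy hy' (by omega) hK hz fun _ hv => wi_sub (by omega) h i hv
  wall2 i _ hz := Vw.wall hw hw' (by omega) hJ hz fun _ hv => wi_sub' (by omega) h i hv
  endA _ := Rw.end_sub _
  endB _ := Rw.end_sub _
  stepR _ v hv z z' hz hz' hp' hR := Rw.step hy hy' (by omega) hp hK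
    (fun w h1 h2 h3 h4 h5 hc => tb_near (by omega) h hv w h1 h2 h3 h4 h5 hc) hz hz' hp' hR
  stepS _ v hv z z' hz hz' hp' hR := Rw.step hw hw' (by omega) hq hJ
    (fun w h1 h2 h3 h4 h5 hc => tb_near' (by omega) h hv w h1 h2 h3 h4 h5 hc) hz hz' hp' hR
  parR _ _ hz := Rw.par hz
  parS _ _ hz := Rw.par hz
  disj _ := by
    rw [Set.disjoint_left]
    intro z h1 h2
    have e1 : (gz b1 b2 x z).2 ≤ 3 * m := by
      rcases h1 with h1 | h1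
      · exact (Rw.rect h1).2.2.2
      · exact (Vw.box h1).2.2.2
    have e2 : m' ≤ (gz b1 b2 x z).2 := by
      rcases h2 with h2 | h2
      · exact (Rw.rect h2).2.2.1
      · exact (Vw.box h2).2.2.1
    omega
  wind := by
    refine wind_fr (b1 := b1) (b2 := b2) (m := m) (m' := m') hn (by omega) (by omega) hN ?_ ?_ ?_ ?_
    · intro v hv
      rw [mem_Tb, if_neg (by simp), mem_LF] at hv
      unfold T0
      omega
    · intro v hv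
      rw [mem_Tb, if_pos rfl, mem_LT] at hv
      unfold T1
      omega
    · exact fun z hz => ⟨Vw.par hp hz, Vw.box hz⟩
    · exact fun z hz => ⟨Vw.par hq hz, Vw.box hz⟩

/-- **Every wall which crosses a ring gives tubes.** -/
theorem tubes_all {Q : ℝ} (K : Kit Q) : ∃ (a : ℝ) (L s0 : ℤ), 0 < a ∧ a ≤ 1 ∧ 2 ≤ L ∧ 1 ≤ s0 ∧
    Tubes Q a L s0 := by
  obtain ⟨a, s0, h1, h2, h3, h4⟩ := Tb_low K 625
  refine ⟨a, 3125, max s0 2, h1, h2, by norm_num, h3.trans (le_max_left _ _), ?_⟩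
  intro c x n U z0 z1 hn hp hz0 hz1 hP
  have hmn : ∀ k : Fin 5, n ≤ 5 ^ (k : ℕ) * n ∧ 5 ^ (k : ℕ) * n ≤ 625 * n := by
    intro k
    have e1 : (1 : ℤ) ≤ 5 ^ (k : ℕ) := one_le_pow₀ (by norm_num)
    have e2 : (5 : ℤ) ^ (k : ℕ) ≤ 5 ^ 4 := pow_le_pow_right₀ (by norm_num) (by omega)
    have hn0 : 0 ≤ n := by omega
    norm_num at e2
    exact ⟨by nlinarith, by nlinarith⟩
  have hw : ∀ k : Fin 5, ∃ b1 b2 : Bool, ∃ y y' : ℤ × ℤ, y.2 = 5 ^ (k : ℕ) * n ∧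
      y'.2 = 3 * (5 ^ (k : ℕ) * n) ∧ ((zi b1 b2 x y).1 + (zi b1 b2 x y).2) % 2 = pr c ∧
        PConn {w | gi b1 b2 x w ∉ U} (Rect (-(3 * (5 ^ (k : ℕ) * n))) (3 * (5 ^ (k : ℕ) * n))
          (5 ^ (k : ℕ) * n) (3 * (5 ^ (k : ℕ) * n))) y y' := by
    intro k
    have e := hmn k
    obtain ⟨b1, b2, y, y', g1, g2, g3, g4⟩ := exists_win (x := x) (m := 5 ^ (k : ℕ) * n) (by omega) hP
      (by omega) (by omega)
    exact ⟨b1, b2, y, y', g1, g2, by rw [← g3, hp], g4⟩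
  choose b1 b2 y y' g1 g2 g3 g4 using hw
  obtain ⟨i, j, hij, hb⟩ := Fintype.exists_ne_map_eq_of_card_lt (fun k : Fin 5 => (b1 k, b2 k))
    (by simp)
  simp only [Prod.mk.injEq] at hb
  obtain ⟨i, j, hij, hb⟩ : ∃ i j : Fin 5, i < j ∧ b1 i = b1 j ∧ b2 i = b2 j := by
    rcases lt_or_gt_of_ne hij with h | h
    · exact ⟨i, j, h, hb⟩
    · exact ⟨j, i, h, hb.1.symm, hb.2.symm⟩
  have e1 := hmn i
  have e2 := hmn j
  have e3 : 5 * (5 ^ (i : ℕ) * n) ≤ 5 ^ (j : ℕ) * n := by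
    have e4 : (5 : ℤ) ^ ((i : ℕ) + 1) ≤ 5 ^ (j : ℕ) :=
      pow_le_pow_right₀ (by norm_num) (by
        have : (i : ℕ) < (j : ℕ) := hij
        omega)
    rw [pow_succ] at e4
    nlinarith
  have g3j := g3 j
  have g4j := g4 j
  rw [← hb.1, ← hb.2] at g3j g4j
  exact ⟨_, _, _, _, _, _, _, tube_pair (by omega) (by omega) e3 (by omega)
    (fun l => h4 c (b1 i) (b2 i) x _ _ (by omega) e3 (by push_cast; nlinarith) l)
    (g1 i) (g2 i) (g3 i) (g4 i) (g1 j) (g2 j) g3j g4j⟩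

end Vale.Agent.P167.N.BAR
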