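import Vale.Agent.P167.N.BAR.Tub
import Vale.Agent.P167.H685.LD.Meet

/-!
# P167, `0 < q < 1`: windows of a ring

A connected set of walls which crosses a window of the ring gives the sets `V`, `R` of sites which the
structure `TubePair` asks for.
-/

set_option autoImplicit false

namespace Vale.Agent.P167.N.BAR

open Finset Relation Vale.Agent.P167 Vale.Agent.P167.FK Vale.Agent.P167.FKA Vale.Agent.P167.H192.TA
  Vale.Agent.P167.H632 Vale.Agent.P167.H262 Vale.Agent.P167.H192.Q Vale.Agent.P167.N.H192.Q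
  Vale.Agent.P167.H704 Vale.Agent.P167.H871 Vale.Agent.P167.H906
open Vale.Agent.P145.FB (PStep PConn)
open Vale.Agent.P153.Topo (Rect mem_rect)

/-- The site with the given coordinates. -/
def zi (b1 b2 : Bool) (x w : ℤ × ℤ) : ℤ × ℤ :=
  if b1 then (if b2 then (x.1 - w.2, x.2 + w.1) else (x.1 + w.2, x.2 + w.1))
  else (if b2 then (x.1 + w.1, x.2 - w.2) else (x.1 + w.1, x.2 + w.2))

theorem gz_zi (b1 b2 : Bool) (x w : ℤ × ℤ) : gz b1 b2 x (zi b1 b2 x w) = w := by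
  cases b1 <;> cases b2 <;> simp [gz, zi]

theorem zi_gz (b1 b2 : Bool) (x w : ℤ × ℤ) : zi b1 b2 x (gz b1 b2 x w) = w := by
  cases b1 <;> cases b2 <;> simp [gz, zi]

theorem step_gz {b1 b2 : Bool} {x : ℤ × ℤ} {F : Set (ℤ × ℤ)} {u v : ℤ × ℤ} (h : PStep F u v) :
    PStep {w | gi b1 b2 x w ∈ F} (gz b1 b2 x u) (gz b1 b2 x v) := by
  obtain ⟨h1, h2, h3⟩ := h
  have key : gi b1 b2 x (min (gz b1 b2 x u).1 (gz b1 b2 x v).1,
      min (gz b1 b2 x u).2 (gz b1 b2 x v).2) = (min u.1 v.1, min u.2 v.2) := by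
    cases b1 <;> cases b2 <;> simp only [gz, gi, if_true, if_false, Bool.false_eq_true] <;>
      refine Prod.ext ?_ ?_ <;> simp only <;> omega
  refine ⟨?_, ?_, ?_⟩
  · cases b1 <;> cases b2 <;> simp only [gz, if_true, if_false, Bool.false_eq_true] <;> omega
  · cases b1 <;> cases b2 <;> simp only [gz, if_true, if_false, Bool.false_eq_true] <;> omega
  · show gi b1 b2 x _ ∈ F
    rw [key]
    exact h3

theorem step_zi {b1 b2 : Bool} {x : ℤ × ℤ} {F : Set (ℤ × ℤ)} {u v : ℤ × ℤ} (h : PStep F u v) :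
    PStep {w | gs b1 b2 x w ∈ F} (zi b1 b2 x u) (zi b1 b2 x v) := by
  obtain ⟨h1, h2, h3⟩ := h
  have key : gs b1 b2 x (min (zi b1 b2 x u).1 (zi b1 b2 x v).1,
      min (zi b1 b2 x u).2 (zi b1 b2 x v).2) = (min u.1 v.1, min u.2 v.2) := by
    cases b1 <;> cases b2 <;> simp only [zi, gs, if_true, if_false, Bool.false_eq_true] <;>
      refine Prod.ext ?_ ?_ <;> simp only <;> omega
  refine ⟨?_, ?_, ?_⟩
  · cases b1 <;> cases b2 <;> simp only [zi, if_true, if_false, Bool.false_eq_true] <;> omega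
  · cases b1 <;> cases b2 <;> simp only [zi, if_true, if_false, Bool.false_eq_true] <;> omega
  · show gs b1 b2 x _ ∈ F
    rw [key]
    exact h3

theorem pw_gz {b1 b2 : Bool} {x : ℤ × ℤ} {F : Set (ℤ × ℤ)} {u v : ℤ × ℤ} (h : Pw F u v) :
    Pw {w | gi b1 b2 x w ∈ F} (gz b1 b2 x u) (gz b1 b2 x v) := by
  induction h with
  | refl => exact ReflTransGen.refl
  | tail _ h1 ih => exact ih.tail (step_gz h1)

theorem pw_zi {b1 b2 : Bool} {x : ℤ × ℤ} {F : Set (ℤ × ℤ)} {u v : ℤ × ℤ} (h : Pw F u v) :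
    Pw {w | gs b1 b2 x w ∈ F} (zi b1 b2 x u) (zi b1 b2 x v) := by
  induction h with
  | refl => exact ReflTransGen.refl
  | tail _ h1 ih => exact ih.tail (step_zi h1)

theorem par_gz (b1 b2 : Bool) (x u v : ℤ × ℤ) : (u.1 + u.2) % 2 = (v.1 + v.2) % 2 ↔
    ((gz b1 b2 x u).1 + (gz b1 b2 x u).2) % 2 = ((gz b1 b2 x v).1 + (gz b1 b2 x v).2) % 2 := by
  cases b1 <;> cases b2 <;> simp only [gz, if_true, if_false, Bool.false_eq_true] <;> omega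

theorem par_zi (b1 b2 : Bool) (x u v : ℤ × ℤ) : (u.1 + u.2) % 2 = (v.1 + v.2) % 2 ↔
    ((zi b1 b2 x u).1 + (zi b1 b2 x u).2) % 2 = ((zi b1 b2 x v).1 + (zi b1 b2 x v).2) % 2 := by
  rw [par_gz b1 b2 x (zi b1 b2 x u), gz_zi, gz_zi]

theorem nm_step {F : Set (ℤ × ℤ)} (x : ℤ × ℤ) (a b : ℤ × ℤ) (h : PStep F a b) :
    nm (b - x) ≤ nm (a - x) + 1 := by
  obtain ⟨k1, k2, -⟩ := h
  simp only [nm, Prod.fst_sub, Prod.snd_sub]
  have e1 := abs_le.1 (le_refl |a.1 - x.1|)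
  have e2 := abs_le.1 (le_refl |a.2 - x.2|)
  have e3 : |b.1 - x.1| ≤ |a.1 - x.1| + 1 := abs_le.2 ⟨by omega, by omega⟩
  have e4 : |b.2 - x.2| ≤ |a.2 - x.2| + 1 := abs_le.2 ⟨by omega, by omega⟩
  omega

theorem pconn_gz {b1 b2 : Bool} {x : ℤ × ℤ} {F : Set (ℤ × ℤ)} {R : ℤ} {u v : ℤ × ℤ}
    (h : PConn F {w | nm (w - x) ≤ R} u v) :
    PConn {w | gi b1 b2 x w ∈ F} {w | nm w ≤ R} (gz b1 b2 x u) (gz b1 b2 x v) := by
  obtain ⟨h0, h1⟩ := h
  have key : ∀ w, w ∈ {w : ℤ × ℤ | nm (w - x) ≤ R} → gz b1 b2 x w ∈ {w : ℤ × ℤ | nm w ≤ R} := by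
    intro w hw
    show nm (gz b1 b2 x w) ≤ R
    rw [nm_fr]
    exact hw
  induction h1 with
  | refl => exact PConn.refl (key _ h0)
  | tail _ h2 ih => exact ih.tail (step_gz h2.1) (key _ h2.2)

theorem le_nm {w : ℤ × ℤ} {R : ℤ} (h : nm w ≤ R) : -R ≤ w.1 ∧ w.1 ≤ R ∧ -R ≤ w.2 ∧ w.2 ≤ R := by
  have h1 := abs_le.1 (show |w.1| ≤ R from (le_max_left _ _).trans h)
  have h2 := abs_le.1 (show |w.2| ≤ R from (le_max_right _ _).trans h)
  exact ⟨h1.1, h1.2, h2.1, h2.2⟩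

/-- **A path which crosses a ring crosses one of the four windows the short way.** -/
theorem exists_win {F : Set (ℤ × ℤ)} {x u v : ℤ × ℤ} {m : ℤ} (hm : 0 < m) (h : Pw F u v)
    (hu : nm (u - x) ≤ m) (hv : 3 * m ≤ nm (v - x)) : ∃ b1 b2 : Bool, ∃ y y' : ℤ × ℤ,
      y.2 = m ∧ y'.2 = 3 * m ∧ (u.1 + u.2) % 2 = ((zi b1 b2 x y).1 + (zi b1 b2 x y).2) % 2 ∧
        PConn {w | gi b1 b2 x w ∈ F} (Rect (-(3 * m)) (3 * m) m (3 * m)) y y' := by
  have h1 : PConn F Set.univ u v :=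
    ⟨Set.mem_univ _, ReflTransGen.mono (fun a b hab => ⟨hab, Set.mem_univ _⟩) _ _ h⟩
  obtain ⟨z, z1, z2, -⟩ := pconn_cut_first (fun w => nm (w - x)) (nm_step x) h1 (R := 3 * m)
    (by omega) hv
  have h2 : PConn F {w | nm (w - x) ≤ 3 * m} u z := z2.mono subset_rfl Set.inter_subset_right
  have key : ∀ b1 b2 : Bool, (gz b1 b2 x z).2 = 3 * m → ∃ y y' : ℤ × ℤ,
      y.2 = m ∧ y'.2 = 3 * m ∧ (u.1 + u.2) % 2 = ((zi b1 b2 x y).1 + (zi b1 b2 x y).2) % 2 ∧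
        PConn {w | gi b1 b2 x w ∈ F} (Rect (-(3 * m)) (3 * m) m (3 * m)) y y' := by
    intro b1 b2 hz
    have h3 := pconn_gz (b1 := b1) (b2 := b2) h2
    have h4 : (gz b1 b2 x u).2 ≤ m := by
      have h5 : nm (gz b1 b2 x u) ≤ m := by rwa [nm_fr]
      exact (le_nm h5).2.2.2
    obtain ⟨y, y', a1, a2, a3, a4, -⟩ := cut2 (fun w => w.2) row_inc (r := m) (R := 3 * m)
      (by omega) h3 h4 hz.ge
    refine ⟨y, y', a1, a2, ?_, a4.mono subset_rfl ?_⟩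
    · rw [par_gz b1 b2 x u, gz_zi]
      exact a3.parity
    · rintro w ⟨hw, hw1, hw2⟩
      have := le_nm (show nm w ≤ 3 * m from hw)
      rw [mem_rect]
      omega
  have hz : (gz false false x z).2 = 3 * m ∨ (gz false true x z).2 = 3 * m ∨
      (gz true false x z).2 = 3 * m ∨ (gz true true x z).2 = 3 * m := by
    simp only [nm, Prod.fst_sub, Prod.snd_sub] at z1
    simp only [gz, if_true, if_false, Bool.false_eq_true]
    rcases abs_choice (z.1 - x.1) with e1 | e1 <;> rcases abs_choice (z.2 - x.2) with e2 | e2 <;>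
      rw [e1, e2] at z1 <;> omega
  rcases hz with hz | hz | hz | hz
  · exact ⟨_, _, key _ _ hz⟩
  · exact ⟨_, _, key _ _ hz⟩
  · exact ⟨_, _, key _ _ hz⟩
  · exact ⟨_, _, key _ _ hz⟩

/-! ### The sets of a window -/

/-- The sites of the wall. -/
def Vw (b1 b2 : Bool) (x : ℤ × ℤ) (U : Finset (ℤ × ℤ)) (m : ℤ) (y : ℤ × ℤ) : Set (ℤ × ℤ) :=
  {z | PConn {w | gi b1 b2 x w ∉ U} (Rect (-(3 * m)) (3 * m) m (3 * m)) y (gz b1 b2 x z)}

/-- The sites of the window on the side of the end `i`. -/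
def Rw (e : ℤ) (b1 b2 : Bool) (x : ℤ × ℤ) (U : Finset (ℤ × ℤ)) (m : ℤ) (y : ℤ × ℤ) (i : Bool) :
    Set (ℤ × ℤ) :=
  {z | ∃ u ∈ Sd e (fr b1 b2 x (Wi m)) i, u ∉ Vw b1 b2 x U m y ∧
    PConn {w | ∀ t ∈ Vw b1 b2 x U m y, ¬ Cor (gi b1 b2 x w) t}
      (Rect (-(3 * m)) (3 * m) m (3 * m)) (gz b1 b2 x u) (gz b1 b2 x z)}

section

variable {b1 b2 : Bool} {x : ℤ × ℤ} {U : Finset (ℤ × ℤ)} {m : ℤ} {y y' : ℤ × ℤ} {e : ℤ}

theorem Vw.box {z : ℤ × ℤ} (h : z ∈ Vw b1 b2 x U m y) : -(3 * m) ≤ (gz b1 b2 x z).1 ∧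
    (gz b1 b2 x z).1 ≤ 3 * m ∧ m ≤ (gz b1 b2 x z).2 ∧ (gz b1 b2 x z).2 ≤ 3 * m := by
  have := PConn.right_mem h
  rwa [mem_rect] at this

theorem Vw.par {z : ℤ × ℤ} (hp : ((zi b1 b2 x y).1 + (zi b1 b2 x y).2) % 2 = e)
    (h : z ∈ Vw b1 b2 x U m y) : (z.1 + z.2) % 2 = e := by
  rw [← hp, par_gz b1 b2 x z, gz_zi]
  exact (PConn.parity h).symm

/-- The wall is connected by walls of the window. -/
theorem Vw.con {z z' : ℤ × ℤ} (h : z ∈ Vw b1 b2 x U m y) (h' : z' ∈ Vw b1 b2 x U m y)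
    {T : Finset (ℤ × ℤ)} (hT : ∀ v, gs b1 b2 x v ∈ sq (Wi m) → v ∈ T) :
    Pw {v | v ∈ T ∧ v ∉ U} z z' := by
  have h1 := pw_rect ((PConn.symm h).trans h')
  have h2 := pw_zi (b1 := b1) (b2 := b2) (x := x) h1
  rw [zi_gz, zi_gz] at h2
  refine h2.mono ?_
  rintro v ⟨hv, hv'⟩
  refine ⟨hT v hv', ?_⟩
  have : gi b1 b2 x (gs b1 b2 x v) ∉ U := hv
  rwa [gi_gs] at this

theorem step_last {F R : Set (ℤ × ℤ)} {u v w : ℤ × ℤ} (h : PConn F R u v) (hvw : PConn F R u w)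
    (hne : v ≠ w) : ∃ a, PStep F v a ∧ a ∈ R := by
  have h1 : PConn F R v w := h.symm.trans hvw
  rcases ReflTransGen.cases_head h1.2 with h2 | ⟨a, h2, -⟩
  · exact absurd h2 hne
  · exact ⟨a, h2.1, h2.2⟩

/-- Every site of the wall touches a wall. -/
theorem Vw.wall (hy : y.2 = m) (hy' : y'.2 = 3 * m) (hm : 0 < m)
    (hK : PConn {w | gi b1 b2 x w ∉ U} (Rect (-(3 * m)) (3 * m) m (3 * m)) y y')
    {z : ℤ × ℤ} (h : z ∈ Vw b1 b2 x U m y) {T : Finset (ℤ × ℤ)}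
    (hT : ∀ v, gs b1 b2 x v ∈ sq (Wi m) → v ∈ T) : ∃ v ∈ T, v ∉ U ∧ Cor v z := by
  have h0 := Vw.box h
  obtain ⟨a, h1, h2⟩ : ∃ a, PStep {w | gi b1 b2 x w ∉ U} (gz b1 b2 x z) a ∧
      a ∈ Rect (-(3 * m)) (3 * m) m (3 * m) := by
    by_cases hz : gz b1 b2 x z = y
    · exact step_last h hK (by rw [hz]; rintro rfl; omega)
    · exact step_last h (PConn.refl hK.left_mem) hz
  rw [mem_rect] at h2
  obtain ⟨k1, k2, k3⟩ := h1
  refine ⟨gi b1 b2 x (min (gz b1 b2 x z).1 a.1, min (gz b1 b2 x z).2 a.2), hT _ ?_, k3, ?_⟩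
  · rw [gs_gi]
    refine ⟨?_, ?_, ?_, ?_⟩ <;> simp only [Wi] <;> omega
  · rw [cor_fr (b1 := b1) (b2 := b2) (x := x), gs_gi]
    refine ⟨?_, ?_⟩ <;> simp only <;> omega

theorem Rw.par {i : Bool} {z : ℤ × ℤ} (h : z ∈ Rw e b1 b2 x U m y i) : (z.1 + z.2) % 2 = e := by
  obtain ⟨u, hu, -, h⟩ := h
  rw [← hu.1, par_gz b1 b2 x z]
  exact h.parity.symm

theorem Rw.rect {i : Bool} {z : ℤ × ℤ} (h : z ∈ Rw e b1 b2 x U m y i) :
    -(3 * m) ≤ (gz b1 b2 x z).1 ∧ (gz b1 b2 x z).1 ≤ 3 * m ∧ m ≤ (gz b1 b2 x z).2 ∧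
      (gz b1 b2 x z).2 ≤ 3 * m := by
  obtain ⟨u, hu, -, h⟩ := h
  have := h.right_mem
  rwa [mem_rect] at this

theorem Rw.end_sub (i : Bool) :
    Sd e (fr b1 b2 x (Wi m)) i ⊆ Rw e b1 b2 x U m y i ∪ Vw b1 b2 x U m y := by
  intro u hu
  by_cases h : u ∈ Vw b1 b2 x U m y
  · exact Or.inr h
  · refine Or.inl ⟨u, hu, h, PConn.refl ?_⟩
    rw [Wi, mem_sd_fr] at hu
    rw [mem_rect]
    exact ⟨hu.2.1, hu.2.2.1, hu.2.2.2.1, hu.2.2.2.2.1⟩

theorem Rw.not_Vw {i : Bool} {z : ℤ × ℤ} (h : z ∈ Rw e b1 b2 x U m y i) :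
    z ∉ Vw b1 b2 x U m y := by
  obtain ⟨u, hu, hu', h⟩ := h
  intro hz
  rcases ReflTransGen.cases_tail h.2 with h1 | ⟨a, -, h1, -⟩
  · have : z = u := by
      have h2 := congrArg (zi b1 b2 x) h1
      rwa [zi_gz, zi_gz] at h2
    exact hu' (this ▸ hz)
  · obtain ⟨k1, k2, k3⟩ := h1
    refine k3 z hz ?_
    rw [cor_fr (b1 := b1) (b2 := b2) (x := x), gs_gi]
    refine ⟨?_, ?_⟩ <;> simp only <;> omega

/-- The sites on one side of the wall do not reach the other side of the window. -/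
theorem Rw.side (hy : y.2 = m) (hy' : y'.2 = 3 * m) (hm : 0 < m)
    (hp : ((zi b1 b2 x y).1 + (zi b1 b2 x y).2) % 2 = e)
    (hK : PConn {w | gi b1 b2 x w ∉ U} (Rect (-(3 * m)) (3 * m) m (3 * m)) y y') {i : Bool}
    {z : ℤ × ℤ} (h : z ∈ Rw e b1 b2 x U m y i) :
    (gz b1 b2 x z).1 ≠ if i then -(3 * m) else 3 * m := by
  intro hz
  have hz0 := h
  obtain ⟨u, hu, hu', h⟩ := h
  have hu0 := hu
  rw [Wi, mem_sd_fr] at hu
  have hpy : (y.1 + y.2) % 2 = ((gz b1 b2 x u).1 + (gz b1 b2 x u).2) % 2 := by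
    have h1 := (par_gz b1 b2 x (zi b1 b2 x y) u).1 (hp.trans hu.1.symm)
    rwa [gz_zi] at h1
  have key : ∀ t : ℤ × ℤ, PConn {w | gi b1 b2 x w ∉ U} (Rect (-(3 * m)) (3 * m) m (3 * m)) y t →
      PConn {w | ∀ t ∈ Vw b1 b2 x U m y, ¬ Cor (gi b1 b2 x w) t}
        (Rect (-(3 * m)) (3 * m) m (3 * m)) (gz b1 b2 x u) t → False := by
    intro t h1 h2
    have h3 : zi b1 b2 x t ∈ Vw b1 b2 x U m y := by
      show PConn _ _ _ _
      rwa [gz_zi]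
    refine Rw.not_Vw (e := e) (i := i) ?_ h3
    refine ⟨u, hu0, hu', ?_⟩
    rwa [gz_zi]
  cases i
  · rw [if_neg (by simp)] at hz
    have h5 := hu.2.2.2.2.2
    rw [if_neg (by simp)] at h5
    obtain ⟨t, t1, t2⟩ := Vale.Agent.P167.H685.LD.meet2 (e := (y.1 + y.2) % 2) hK hy.le hy'.ge rfl h
      h5.le hz.ge hpy.symm (by omega) (by omega)
    exact key t t1 t2
  · rw [if_pos rfl] at hz
    have h5 := hu.2.2.2.2.2
    rw [if_pos rfl] at h5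
    obtain ⟨t, t1, t2⟩ := Vale.Agent.P167.H685.LD.meet2 (e := (y.1 + y.2) % 2) hK hy.le hy'.ge rfl
      h.symm hz.le h5.ge (by rw [← h.parity]; exact hpy.symm) (by omega) (by omega)
    exact key t t1 (h.trans t2)

theorem ne_or {p q : ℤ × ℤ} (h : p ≠ q) : p.1 ≠ q.1 ∨ p.2 ≠ q.2 := by
  by_contra hc
  push Not at hc
  exact h (Prod.ext hc.1 hc.2)

/-- Steps of the tube do not leave the side except through the wall. -/
theorem Rw.step (hy : y.2 = m) (hy' : y'.2 = 3 * m) (hm : 0 < m)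
    (hp : ((zi b1 b2 x y).1 + (zi b1 b2 x y).2) % 2 = e)
    (hK : PConn {w | gi b1 b2 x w ∉ U} (Rect (-(3 * m)) (3 * m) m (3 * m)) y y') {i : Bool}
    {v z z' : ℤ × ℤ} (hv : ∀ w : ℤ × ℤ, -(3 * m) ≤ w.1 → w.1 ≤ 3 * m → m ≤ w.2 → w.2 ≤ 3 * m →
      (w.1 ≠ if i then -(3 * m) else 3 * m) → Cor (gs b1 b2 x v) w → gs b1 b2 x v ∈ sq (Wi m))
    (hz : Cor v z) (hz' : Cor v z') (hp' : (z'.1 + z'.2) % 2 = e)
    (h : z ∈ Rw e b1 b2 x U m y i) : z' ∈ Rw e b1 b2 x U m y i ∪ Vw b1 b2 x U m y := by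
  by_cases hzz : z' = z
  · rw [hzz]
    exact Or.inl h
  have h1 := Rw.rect h
  have h2 := Rw.side hy hy' hm hp hK h
  have hpz := Rw.par h
  have hc := (cor_fr (b1 := b1) (b2 := b2) (x := x)).1 hz
  have hc' := (cor_fr (b1 := b1) (b2 := b2) (x := x)).1 hz'
  have h3 := hv _ h1.1 h1.2.1 h1.2.2.1 h1.2.2.2 h2 hc
  have hne : gz b1 b2 x z' ≠ gz b1 b2 x z := by
    intro h4
    have h5 := congrArg (zi b1 b2 x) h4
    rw [zi_gz, zi_gz] at h5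
    exact hzz h5
  have hpp := (par_gz b1 b2 x z z').1 (hpz.trans hp'.symm)
  by_cases hG : ∀ t ∈ Vw b1 b2 x U m y, ¬ Cor v t
  · left
    obtain ⟨u, hu, hu', h5⟩ := h
    refine ⟨u, hu, hu', h5.tail (v := gz b1 b2 x z) ⟨?_, ?_, ?_⟩ ?_⟩
    · obtain ⟨a1, a2⟩ := hc
      obtain ⟨a3, a4⟩ := hc'
      have := ne_or hne
      omega
    · obtain ⟨a1, a2⟩ := hc
      obtain ⟨a3, a4⟩ := hc'
      have := ne_or hne
      omega
    · have : (min (gz b1 b2 x z).1 (gz b1 b2 x z').1, min (gz b1 b2 x z).2 (gz b1 b2 x z').2) =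
          gs b1 b2 x v := by
        obtain ⟨a1, a2⟩ := hc
        obtain ⟨a3, a4⟩ := hc'
        have := ne_or hne
        refine Prod.ext ?_ ?_ <;> simp only <;> omega
      rw [this]
      show ∀ t ∈ Vw b1 b2 x U m y, ¬ Cor (gi b1 b2 x (gs b1 b2 x v)) t
      rwa [gi_gs]
    · obtain ⟨b3, b4, b5, b6⟩ := h3
      obtain ⟨a3, a4⟩ := hc'
      simp only [Wi] at b3 b4 b5 b6
      rw [mem_rect]
      omega
  · right
    push Not at hG
    obtain ⟨t, t1, t2⟩ := hG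
    have ht0 : t ≠ z := fun h4 => Rw.not_Vw h (h4 ▸ t1)
    have hpt := Vw.par hp t1
    have hct := (cor_fr (b1 := b1) (b2 := b2) (x := x)).1 t2
    have hnt : gz b1 b2 x t ≠ gz b1 b2 x z := by
      intro h4
      have h5 := congrArg (zi b1 b2 x) h4
      rw [zi_gz, zi_gz] at h5
      exact ht0 h5
    have hpt' := (par_gz b1 b2 x z t).1 (hpz.trans hpt.symm)
    have : z' = t := by
      have h6 : gz b1 b2 x z' = gz b1 b2 x t := by
        obtain ⟨a1, a2⟩ := hc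
        obtain ⟨a3, a4⟩ := hc'
        obtain ⟨a5, a6⟩ := hct
        have := ne_or hne
        have := ne_or hnt
        refine Prod.ext ?_ ?_ <;> omega
      have h7 := congrArg (zi b1 b2 x) h6
      rwa [zi_gz, zi_gz] at h7
    rw [this]
    exact t1

end

end Vale.Agent.P167.N.BAR
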